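import Vale.Agent.P217.FG.Group

/-!
# P217: the formal group law over the Lubin-Tate ring

Existence, uniqueness and commutativity of the formal group law with Hazewinkel's logarithm over
`E0`, multiplication by `p` modulo ideals containing `p`, and the Honda special fibre.
-/

noncomputable section

namespace Vale.Agent.P217.FG

open MvPowerSeries Finsupp Finset

variable {p : ℕ} [hp : Fact p.Prime]

theorem nsmulSeries_map {R k : Type} [CommRing R] [CommRing k] (ψ : R →+* k) (F : FormalGroup R)
    (m : ℕ) : nsmulSeries (F.map ψ) m = PowerSeries.map ψ (nsmulSeries F m) := by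
  induction m with
  | zero => simp [nsmulSeries]
  | succ m ih =>
    change _ = PowerSeries.map ψ (F.toPowerSeries.subst ![PowerSeries.X, nsmulSeries F m])
    rw [map_two ψ F PowerSeries.constantCoeff_X (Haz.constantCoeff_nsmulSeries F m),
      PowerSeries.map_X, ← ih]
    rfl

/-- The tail when only `u n = 1` survives. -/
theorem map_tail_eq {R k : Type} [CommRing R] [CommRing k] (ψ : R →+* k) (F : FormalGroup R)
    (v : ℕ → R) {n : ℕ} (hn : 1 ≤ n) (hv : ∀ i, 1 ≤ i → ψ (v i) = if i = n then 1 else 0)
    (j : ℕ) :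
    PowerSeries.map ψ (tail p F v j) = if n ≤ j then PowerSeries.X ^ p ^ n else 0 := by
  induction j with
  | zero => simp [tail, show ¬n ≤ 0 by omega]
  | succ j ih =>
    have h0 : (PowerSeries.C (v (j + 1)) * PowerSeries.X ^ p ^ (j + 1)).constantCoeff = 0 := by
      simp [zero_pow (pow_ne (p := p) (j + 1))]
    have hX : PowerSeries.HasSubst (PowerSeries.X ^ p ^ n : PowerSeries k) :=
      PowerSeries.HasSubst.X_pow (pow_ne n)
    change PowerSeries.map ψ (F.toPowerSeries.subst
      ![PowerSeries.C (v (j + 1)) * PowerSeries.X ^ p ^ (j + 1), tail p F v j]) = _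
    rw [map_two ψ F h0 (Haz.constantCoeff_tail F v j), map_mul, PowerSeries.map_C, map_pow,
      PowerSeries.map_X, hv _ (by omega), ih]
    rcases lt_trichotomy (j + 1) n with h | h | h
    · rw [if_neg h.ne, if_neg (by omega), if_neg (by omega), map_zero, zero_mul]
      exact (F.map ψ).zero_add PowerSeries.HasSubst.zero
    · rw [if_pos h, if_neg (by omega), if_pos h.ge, map_one, one_mul, h]
      exact (F.map ψ).add_zero hX
    · rw [if_neg h.ne', if_pos (by omega), if_pos h.le, map_zero, zero_mul]
      exact (F.map ψ).zero_add hX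

variable (p) (n : ℕ)

lemma natCast_ne_zero : (p : E0 p n) ≠ 0 := fun h => by
  apply WittVector.p_nonzero p (Coef p n)
  simpa using congrArg MvPowerSeries.constantCoeff h

instance : IsDomain (E0 p n) := NoZeroDivisors.to_isDomain _

instance : FaithfulSMul (E0 p n) (E0inv p n) :=
  (faithfulSMul_iff_algebraMap_injective _ _).2
    (IsLocalization.injective _ (powers_le_nonZeroDivisors_of_noZeroDivisors (natCast_ne_zero p n)))

/-- The Frobenius lift `u i ↦ u i ^ p` on `E0`. -/
def frobLift : E0 p n →+* E0 p n :=
  (expand p hp.out.ne_zero).toRingHom.comp (MvPowerSeries.map WittVector.frobenius)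

lemma dvd_frobenius_sub (a : W p n) : (p : W p n) ∣ WittVector.frobenius a - a ^ p := by
  rw [← Ideal.mem_span_singleton, ← WittVector.ker_constantCoeff, RingHom.mem_ker, map_sub,
    map_pow, sub_eq_zero]
  exact WittVector.coeff_frobenius_charP p a 0

lemma frobLift_u (i : ℕ) : frobLift p n (u p n i) = u p n i ^ p := by
  change expand p hp.out.ne_zero (MvPowerSeries.map WittVector.frobenius (u p n i)) = _
  unfold u
  split_ifs with h1 h2
  · rw [map_X, expand_X]
  · simp
  · simp [zero_pow hp.out.ne_zero]

/-- The data of the functional equation lemma over `E0`. -/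
def haz : Haz p (E0 p n) (E0inv p n) where
  φ := frobLift p n
  φK := IsLocalization.Away.lift (p : E0 p n)
    (g := (algebraMap (E0 p n) (E0inv p n)).comp (frobLift p n))
    (by rw [map_natCast, ← map_natCast (algebraMap (E0 p n) (E0inv p n))]
        exact IsLocalization.Away.algebraMap_isUnit _)
  φK_map a := IsLocalization.Away.lift_eq _ _ a
  frob a := dvd_expand_sub_pow (dvd_frobenius_sub p n) a
  q := IsLocalization.Away.invSelf (p : E0 p n)
  q_mul := by
    have := IsLocalization.Away.mul_invSelf (S := E0inv p n) (p : E0 p n)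
    rwa [map_natCast, mul_comm] at this
  u := u p n
  φ_u := frobLift_u p n
  l := logCoeff p n
  l_zero := by rw [logCoeff]
  l_succ t := by
    have hq : (p : E0inv p n) * IsLocalization.Away.invSelf (p : E0 p n) = 1 := by
      simpa using IsLocalization.Away.mul_invSelf (S := E0inv p n) (p : E0 p n)
    rw [logCoeff, ← mul_assoc, hq, one_mul]
    exact Fin.sum_univ_eq_sum_range (fun s => logCoeff p n s *
      algebraMap (E0 p n) (E0inv p n) (u p n (t + 1 - s)) ^ p ^ s) (t + 1)

lemma u_eq_zero {i : ℕ} (h : n < i) : u p n i = 0 := by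
  simp [u, show ¬(1 ≤ i ∧ i < n) by omega, show i ≠ n by omega]

lemma isHazewinkel_iff (F : FormalGroup (E0 p n)) :
    IsHazewinkel p n F ↔ (haz p n).IsLog F := Iff.rfl

/-- There is a commutative formal group law over `E0` with Hazewinkel's logarithm. -/
theorem exists_isHazewinkel : ∃ F : FormalGroup (E0 p n), F.IsComm ∧ IsHazewinkel p n F := by
  obtain ⟨F, hc, hF⟩ := (haz p n).exists_isLog
  exact ⟨F, hc, (isHazewinkel_iff p n F).2 hF⟩

theorem isHazewinkel_unique {F F' : FormalGroup (E0 p n)} (hF : IsHazewinkel p n F)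
    (hF' : IsHazewinkel p n F') : F = F' :=
  Haz.IsLog.unique (haz p n) ((isHazewinkel_iff p n F).1 hF) ((isHazewinkel_iff p n F').1 hF')

/-- `[p] x = p G +_F ∑^F u i x ^ (p ^ i)`. -/
theorem exists_nsmul_p {F : FormalGroup (E0 p n)} (hF : IsHazewinkel p n F) :
    ∃ G : PowerSeries (E0 p n), G.constantCoeff = 0 ∧
      nsmulSeries F p =
        F.toPowerSeries.subst ![(p : PowerSeries (E0 p n)) * G, tail p F (u p n) n] := by
  obtain ⟨G, h0, -, h⟩ := (haz p n).nsmul_p ((isHazewinkel_iff p n F).1 hF) (fun _ => u_eq_zero p n)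
  exact ⟨G, h0, h⟩

/-- Modulo `p`, multiplication by `p` is `∑^F u i x ^ (p ^ i)`. -/
theorem map_nsmul_p {F : FormalGroup (E0 p n)} (hF : IsHazewinkel p n F) {k : Type} [CommRing k]
    (ψ : E0 p n →+* k) (hψ : ψ (p : E0 p n) = 0) :
    PowerSeries.map ψ (nsmulSeries F p) = PowerSeries.map ψ (tail p F (u p n) n) :=
  (haz p n).map_nsmul_p ((isHazewinkel_iff p n F).1 hF) (fun _ => u_eq_zero p n) ψ hψ

/-- The special fibre is the Honda formal group. -/
theorem specialFibre_nsmul {F : FormalGroup (E0 p n)} (hF : IsHazewinkel p n F) (hn : 1 ≤ n) :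
    nsmulSeries (specialFibre p n F) p = PowerSeries.X ^ p ^ n := by
  have hp0 : residueMap p n (p : E0 p n) = 0 := by
    rw [map_natCast]; exact CharP.cast_eq_zero _ p
  rw [specialFibre, nsmulSeries_map, map_nsmul_p p n hF (residueMap p n) hp0,
    map_tail_eq (residueMap p n) F (u p n) hn (fun i hi => ?_) n, if_pos le_rfl]
  unfold u residueMap
  split_ifs with h1 h2 <;> first | omega | simp_all

instance specialFibre_isComm {F : FormalGroup (E0 p n)} [F.IsComm] :
    (specialFibre p n F).IsComm where
  comm := by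
    have h : F.toPowerSeries = F.toPowerSeries.subst ![MvPowerSeries.X 1, MvPowerSeries.X 0] :=
      FormalGroup.IsComm.comm
    change MvPowerSeries.map (residueMap p n) F.toPowerSeries = _
    conv_lhs => rw [h, map_subst HasSubst.X_X]
    congr 1
    funext i
    fin_cases i <;> simp

end Vale.Agent.P217.FG
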