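import Vale.Agent.P217.Base
import Vale.Agent.P217.FG.Existence
import Vale.Agent.P217.FG.Auto.Scale

/-!
# P217 module A3: test automorphisms of the Honda fibre, Galois stability of `F`

The monomials `a * X ^ (p ^ e)` are endomorphisms of the special fibre: its coefficients are fixed
by Frobenius and it commutes with the scalars in `F_{p^n}`. Hence so are the `x +_Γ a x ^ (p ^ e)`.
-/

noncomputable section

namespace Vale.Agent.P217

open MvPowerSeries

variable {p n : ℕ} [Fact p.Prime] {F : FormalGroup (E0 p n)}

theorem map_coefFrobenius_eq (hF : IsHazewinkel p n F) : F.map (coefFrobenius p n) = F := by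
  have h := FG.twist_eq hF (coefFrobenius p n) 1 fun j _ => by
    rw [one_mul, one_pow, one_mul]
    unfold u coefFrobenius
    split_ifs <;> simp
  rw [map_one, one_mul, one_mul, one_mul,
    show (![X 0, X 1] : Fin 2 → MvPowerSeries (Fin 2) (E0 p n)) = X from
      funext fun i => by fin_cases i <;> rfl, subst_self] at h
  exact FormalGroup.ext h

namespace FG

/-- The coefficients of the special fibre are fixed by Frobenius. -/
lemma specialFibre_frob (hF : IsHazewinkel p n F) :
    MvPowerSeries.map (frobenius (Coef p n) p) (specialFibre p n F).toPowerSeries =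
      (specialFibre p n F).toPowerSeries := by
  have h := map_coefFrobenius_eq hF
  ext d
  conv_rhs => rw [← h]
  simp only [specialFibre, FormalGroup.map, coeff_map, frobenius_def]
  simp only [residueMap, coefFrobenius, RingHom.comp_apply, constantCoeff_map]
  exact (WittVector.coeff_frobenius_charP p _ 0).symm

lemma specialFibre_pow (hF : IsHazewinkel p n F) (e : ℕ) :
    (specialFibre p n F).toPowerSeries ^ p ^ e = (specialFibre p n F).toPowerSeries.subst
      ![(X 0 : MvPowerSeries (Fin 2) (Coef p n)) ^ p ^ e, X 1 ^ p ^ e] := by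
  have hp0 : p ≠ 0 := (Fact.out : p.Prime).ne_zero
  have hm : ∀ k, MvPowerSeries.map (iterateFrobenius (Coef p n) p k)
      (specialFibre p n F).toPowerSeries = (specialFibre p n F).toPowerSeries := by
    intro k
    ext d
    rw [coeff_map, iterateFrobenius_def]
    have hd := congrArg (coeff d) (specialFibre_frob hF)
    rw [coeff_map, frobenius_def] at hd
    induction k with
    | zero => rw [pow_zero, pow_one]
    | succ k ih => rw [pow_succ, pow_mul, ih, hd]
  rw [← map_iterateFrobenius_expand p hp0, map_expand, hm, MvPowerSeries.expand, substAlgHom_apply]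
  congr 1
  funext i
  fin_cases i <;> rfl

/-- The special fibre commutes with the scalars of `F_{p^n}`. -/
lemma specialFibre_scale (hF : IsHazewinkel p n F) (hn : 1 ≤ n) (a : Coef p n) :
    C a * (specialFibre p n F).toPowerSeries =
      (specialFibre p n F).toPowerSeries.subst
        ![(C a * X 0 : MvPowerSeries (Fin 2) (Coef p n)), C a * X 1] := by
  have ha : a ^ p ^ n = a := by
    rw [← GaloisField.card p n (by omega)]
    have := Fintype.ofFinite (Coef p n)
    rw [Nat.card_eq_fintype_card]
    exact FiniteField.pow_card a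
  set z := WittVector.teichmuller p a with hz
  set c : Fin (n - 1) → W p n := fun i => z ^ (p ^ (i.1 + 1) - 1) with hc
  have hpp : ∀ j, 1 ≤ p ^ j := fun j => Nat.one_le_pow _ _ (Fact.out : p.Prime).pos
  have h := FG.twist_eq hF (MvPowerSeries.rescale c) (MvPowerSeries.C z) fun j hj => by
    unfold u
    split_ifs with h1 h2
    · obtain ⟨i, rfl⟩ : ∃ i, j = i + 1 := ⟨j - 1, by omega⟩
      ext d
      rw [← map_pow, coeff_C_mul, coeff_C_mul, coeff_rescale, coeff_X]
      split_ifs with hd
      · subst hd
        rw [Finsupp.prod_single_index (by simp), pow_one, mul_one, mul_one, hc]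
        simp only [Nat.add_sub_cancel]
        rw [← pow_succ', Nat.sub_add_cancel (hpp _)]
      · simp
    · subst h2
      rw [map_one, mul_one, mul_one, ← map_pow, hz, ← map_pow, ha]
    · simp
  have h' := congrArg (MvPowerSeries.map (residueMap p n)) h
  have hsub : MvPowerSeries.HasSubst
      (![C (C z) * X 0, C (C z) * X 1] : Fin 2 → MvPowerSeries (Fin 2) (E0 p n)) :=
    hasSubst_of_constantCoeff_zero fun i => by fin_cases i <;> simp
  rw [map_mul, map_subst hsub, map_C] at h'
  have hres : residueMap p n (C z) = a := by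
    simp [residueMap, hz, WittVector.constantCoeff]
  have hσ : MvPowerSeries.map (residueMap p n) (F.map (MvPowerSeries.rescale c)).toPowerSeries =
      (specialFibre p n F).toPowerSeries := by
    ext d
    simp only [specialFibre, FormalGroup.map, coeff_map, residueMap, RingHom.comp_apply,
      ← coeff_zero_eq_constantCoeff_apply, coeff_rescale, Finsupp.prod_zero_index, one_mul]
  rw [hres, hσ] at h'
  rw [h']
  congr 1
  funext i
  fin_cases i <;> simp [map_C, map_X, hres]

/-- The monomials `a x ^ (p ^ e)` are endomorphisms of the special fibre. -/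
lemma specialFibre_monomial (hF : IsHazewinkel p n F) (hn : 1 ≤ n) (a : Coef p n) (e : ℕ) :
    C a * (specialFibre p n F).toPowerSeries ^ p ^ e = (specialFibre p n F).toPowerSeries.subst
      ![(C a * X 0 ^ p ^ e : MvPowerSeries (Fin 2) (Coef p n)), C a * X 1 ^ p ^ e] := by
  have hq : p ^ e ≠ 0 := (pow_pos (Fact.out : p.Prime).pos e).ne'
  have hb : MvPowerSeries.HasSubst
      (![X 0 ^ p ^ e, X 1 ^ p ^ e] : Fin 2 → MvPowerSeries (Fin 2) (Coef p n)) :=
    hasSubst_of_constantCoeff_zero fun i => by fin_cases i <;> simp [zero_pow hq]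
  have hs : MvPowerSeries.HasSubst
      (![C a * X 0, C a * X 1] : Fin 2 → MvPowerSeries (Fin 2) (Coef p n)) :=
    hasSubst_of_constantCoeff_zero fun i => by fin_cases i <;> simp
  have h := congrArg (MvPowerSeries.subst
    (![X 0 ^ p ^ e, X 1 ^ p ^ e] : Fin 2 → MvPowerSeries (Fin 2) (Coef p n)))
    (specialFibre_scale hF hn a)
  rw [subst_mul hb, subst_C, ← specialFibre_pow hF e, subst_comp_subst_apply hs hb] at h
  rw [h]
  congr 1
  funext i
  fin_cases i <;> simp [subst_mul hb, subst_C, subst_X hb]

end FG

theorem dvd_testAut_sub_X (hF : IsHazewinkel p n F) (a : Coef p n) (e : ℕ) :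
    PowerSeries.X ^ p ^ e ∣ testAut p n F a e - PowerSeries.X := by
  set Γ := specialFibre p n F
  set b : PowerSeries (Coef p n) := PowerSeries.C a * PowerSeries.X ^ p ^ e with hb
  have hq : p ^ e ≠ 0 := (pow_pos (Fact.out : p.Prime).pos e).ne'
  have hb0 : PowerSeries.constantCoeff b = 0 := by simp [hb, zero_pow hq]
  have h1 : MvPowerSeries.HasSubst ![PowerSeries.X, b] :=
    hasSubst_of_constantCoeff_zero fun i => by
      fin_cases i
      · exact PowerSeries.constantCoeff_X
      · exact hb0
  have h2 : MvPowerSeries.HasSubst (![PowerSeries.X, 0] : Fin 2 → PowerSeries (Coef p n)) :=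
    hasSubst_of_constantCoeff_zero fun i => by
      fin_cases i
      · exact PowerSeries.constantCoeff_X
      · exact map_zero _
  rw [PowerSeries.X_pow_dvd_iff]
  intro m hm
  rw [map_sub, sub_eq_zero]
  conv_rhs => rw [← Γ.add_zero (f := PowerSeries.X) PowerSeries.HasSubst.X']
  rw [testAut, PowerSeries.coeff, coeff_subst h1, coeff_subst h2]
  refine finsum_congr fun d => ?_
  congr 1
  rw [Finsupp.prod_fintype _ _ (by simp), Finsupp.prod_fintype _ _ (by simp), Fin.prod_univ_two,
    Fin.prod_univ_two]
  rcases Nat.eq_zero_or_pos (d 1) with hd | hd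
  · simp [hd]
  · have hz : PowerSeries.coeff m (PowerSeries.X ^ d 0 * b ^ d 1) = 0 := by
      refine (PowerSeries.X_pow_dvd_iff.1 (Dvd.dvd.mul_left ?_ _)) m hm
      exact (dvd_mul_left _ _).trans (dvd_pow_self b hd.ne')
    simpa [zero_pow hd.ne', PowerSeries.coeff] using hz

theorem isAut_testAut (hF : IsHazewinkel p n F) [F.IsComm] (hn : 1 ≤ n) (a : Coef p n) {e : ℕ}
    (he : 1 ≤ e) : IsAut (specialFibre p n F) (testAut p n F a e) := by
  set Γ := specialFibre p n F
  set q := p ^ e with hq
  have hq2 : 1 < q := Nat.one_lt_pow (by omega) (Fact.out : p.Prime).one_lt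
  have hb : MvPowerSeries.HasSubst
      (![PowerSeries.X, PowerSeries.C a * PowerSeries.X ^ q] :
        Fin 2 → PowerSeries (Coef p n)) :=
    hasSubst_of_constantCoeff_zero fun i => by
      fin_cases i
      · exact PowerSeries.constantCoeff_X
      · change PowerSeries.constantCoeff _ = 0
        simp [zero_pow (by omega : q ≠ 0)]
  have hg : ∀ w : MvPowerSeries (Fin 2) (Coef p n), w.constantCoeff = 0 →
      PowerSeries.subst w (testAut p n F a e) = Γ.toPowerSeries.subst ![w, C a * w ^ q] := by
    intro w hw
    have h2 : PowerSeries.HasSubst w := PowerSeries.HasSubst.of_constantCoeff_zero hw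
    rw [testAut, PowerSeries.subst, subst_comp_subst_apply hb h2.const]
    congr 1
    funext i
    fin_cases i
    · exact PowerSeries.subst_X h2
    · change PowerSeries.subst w (PowerSeries.C a * PowerSeries.X ^ q) = _
      rw [PowerSeries.subst_mul h2, PowerSeries.subst_C, PowerSeries.subst_pow h2,
        PowerSeries.subst_X h2]
      rfl
  have hc0 : (testAut p n F a e).constantCoeff = 0 :=
    constantCoeff_subst_eq_zero hb (fun i => by
      fin_cases i
      · exact PowerSeries.constantCoeff_X
      · change PowerSeries.constantCoeff _ = 0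
        simp [zero_pow (by omega : q ≠ 0)]) Γ.zero_constantCoeff
  refine ⟨⟨hc0, ?_⟩, ?_⟩
  · rw [hg _ Γ.zero_constantCoeff, hq, FG.specialFibre_monomial hF hn a e, hg _ (by simp),
      hg _ (by simp)]
    let x : Fin 2 → Γ.Point (Fin 2) := fun i =>
      ⟨X i, PowerSeries.HasSubst.of_constantCoeff_zero (by simp)⟩
    let y : Fin 2 → Γ.Point (Fin 2) := fun i =>
      ⟨C a * X i ^ q, PowerSeries.HasSubst.of_constantCoeff_zero
        (by simp [zero_pow (by omega : q ≠ 0)])⟩
    have h : Γ.toPowerSeries.subst
        ![Γ.toPowerSeries.subst ![X 0, X 1], Γ.toPowerSeries.subst ![C a * X 0 ^ q, C a * X 1 ^ q]] =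
      Γ.toPowerSeries.subst ![Γ.toPowerSeries.subst ![(X 0 : MvPowerSeries (Fin 2) (Coef p n)),
        C a * X 0 ^ q], Γ.toPowerSeries.subst ![X 1, C a * X 1 ^ q]] :=
      congrArg Subtype.val (add_add_add_comm (x 0) (x 1) (y 0) (y 1))
    rw [← hq, ← h]
    congr 1
    funext i
    fin_cases i
    · change Γ.toPowerSeries = _
      rw [show (![X 0, X 1] : Fin 2 → MvPowerSeries (Fin 2) (Coef p n)) = X from
        funext fun i => by fin_cases i <;> rfl, subst_self]
      rfl
    · rfl
  · have h := PowerSeries.X_pow_dvd_iff.1 (dvd_testAut_sub_X hF a e) 1 hq2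
    rw [map_sub, PowerSeries.coeff_one_X, sub_eq_zero] at h
    rw [h]
    exact isUnit_one

end Vale.Agent.P217
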