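import Mathlib

/-!
# P217: homogeneous symmetric cocycles in characteristic `p`

Lazard's lemma: the coefficient `c i` of `x ^ i y ^ (d - i)` of a homogeneous symmetric cocycle of
degree `d` is a multiple of `cdCoeff p d i`, which is `choose d i`, divided by `p` when `d` is a
power of `p`.
-/

namespace Vale.Agent.P217.FG

open Nat

variable {p : ℕ} [hp : Fact p.Prime] {k : Type*} [Field k] [CharP k p]

/-- The coefficient relations of a homogeneous symmetric cocycle of degree `d`. -/
structure IsHomCocycle {k : Type*} [CommRing k] (d : ℕ) (c : ℕ → k) : Prop where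
  symm : ∀ i, 1 ≤ i → i < d → c i = c (d - i)
  rel : ∀ a b, 1 ≤ a → 1 ≤ b → a + b < d →
    ((a + b).choose a : k) * c (a + b) = ((d - a).choose b : k) * c a

/-- The coefficients of `C_d`. -/
def cdCoeff (p d i : ℕ) : ℕ :=
  if d = p ^ padicValNat p d then d.choose i / p else d.choose i

/-- The exponent of the pivot of `C_d`. -/
def pivot (p d : ℕ) : ℕ :=
  if d = p ^ padicValNat p d then padicValNat p d - 1 else padicValNat p d

lemma choose_pow_modEq (n s : ℕ) : n.choose (p ^ s) ≡ n / p ^ s [MOD p] := by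
  have h := Choose.choose_modEq_choose_mul_prod_range_choose (n := n) (k := p ^ s) (p := p) s
  rw [← Int.natCast_modEq_iff]
  refine h.trans ?_
  rw [Nat.div_self (pow_pos hp.out.pos s), Nat.choose_one_right, Finset.prod_eq_one]
  · simp [Int.ModEq.refl]
  · intro i hi
    have : p ^ s / p ^ i % p = 0 := by
      rw [Nat.pow_div (Finset.mem_range.1 hi).le hp.out.pos]
      exact Nat.mod_eq_zero_of_dvd (dvd_pow_self p (by have := Finset.mem_range.1 hi; omega))
    simp [this]

lemma cast_choose_pow (n s : ℕ) : (n.choose (p ^ s) : k) = ((n / p ^ s : ℕ) : k) :=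
  (CharP.natCast_eq_natCast k p).2 (choose_pow_modEq n s)

omit hp in
lemma cast_ne_zero {n : ℕ} (h : ¬p ∣ n) : (n : k) ≠ 0 := by
  rwa [Ne, CharP.cast_eq_zero_iff k p]

lemma cast_choose_pivot {d s : ℕ} (h : p ^ (s + 1) ∣ d) (hd : 0 < d) :
    ((d - p ^ s).choose (p ^ (s + 1) - p ^ s) : k) = 1 := by
  refine ((CharP.natCast_eq_natCast k p (b := 1)).2 ?_).trans Nat.cast_one
  obtain ⟨m, rfl⟩ := h
  have hm : 0 < m := Nat.pos_of_mul_pos_left hd
  have e1 : p ^ (s + 1) * m - p ^ s = p ^ s * (p * m - 1) := by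
    rw [Nat.mul_sub, mul_one, pow_succ, mul_assoc]
  have e2 : p ^ (s + 1) - p ^ s = p ^ s * (p - 1) := by rw [Nat.mul_sub, mul_one, pow_succ]
  rw [e1, e2]
  refine Choose.choose_pow_mul_pow_mul_modEq_choose_nat.trans ?_
  refine Choose.choose_modEq_choose_mod_mul_choose_div_nat.trans ?_
  have h1 := hp.out.two_le
  obtain ⟨m, rfl⟩ : ∃ j, m = j + 1 := ⟨m - 1, by omega⟩
  have e3 : p * (m + 1) - 1 = p * m + (p - 1) := by rw [Nat.mul_succ]; omega
  rw [e3, Nat.mul_add_mod, Nat.mod_eq_of_lt (by omega : p - 1 < p), Nat.choose_self,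
    Nat.div_eq_of_lt (by omega : p - 1 < p), Nat.choose_zero_right, mul_one]

/-- A cocycle which vanishes at the pivot vanishes. -/
theorem IsHomCocycle.eq_zero {d : ℕ} {c : ℕ → k} (hc : IsHomCocycle d c)
    (h0 : p ^ pivot p d < d → c (p ^ pivot p d) = 0) :
    ∀ i, 1 ≤ i → i < d → c i = 0 := by
  have hpow : ∀ s, p ^ s < d → c (p ^ s) = 0 := by
    intro s hs
    have hd : 0 < d := by omega
    have hv : p ^ padicValNat p d ∣ d := pow_padicValNat_dvd
    rcases lt_trichotomy s (pivot p d) with h | h | h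
    · have hdvd : p ^ (s + 1) ∣ d := by
        refine (pow_dvd_pow p ?_).trans hv
        unfold pivot at h
        split_ifs at h <;> omega
      have hlt : p ^ (s + 1) < d := by
        unfold pivot at h
        split_ifs at h with hd'
        · rw [hd']
          exact Nat.pow_lt_pow_right hp.out.one_lt (by omega)
        · exact lt_of_le_of_lt (Nat.pow_le_pow_right hp.out.pos (by omega : s + 1 ≤ padicValNat p d))
            (lt_of_le_of_ne (Nat.le_of_dvd hd hv) (Ne.symm hd'))
      have hle : p ^ s < p ^ (s + 1) := Nat.pow_lt_pow_right hp.out.one_lt (by omega)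
      have := hc.rel (p ^ s) (p ^ (s + 1) - p ^ s) (Nat.one_le_pow _ _ hp.out.pos) (by omega)
        (by omega)
      rw [Nat.add_sub_cancel' hle.le, cast_choose_pow, Nat.pow_div (by omega) hp.out.pos,
        cast_choose_pivot hdvd hd, Nat.add_sub_cancel_left] at this
      simpa using this.symm
    · exact h ▸ h0 (h ▸ hs)
    · have hne : d ≠ p ^ padicValNat p d := by
        intro hd'
        rw [hd'] at hs
        have := (Nat.pow_lt_pow_iff_right hp.out.one_lt).1 hs
        simp only [pivot, if_pos hd'] at h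
        omega
      simp only [pivot, if_neg hne] at h h0
      set e := padicValNat p d with he
      obtain ⟨m, hm⟩ := hv
      have hpm : ¬p ∣ m := fun hdvd => pow_succ_padicValNat_not_dvd hd.ne' <| by
        rw [← he, hm, pow_succ]; exact Nat.mul_dvd_mul_left _ hdvd
      obtain ⟨r, hr⟩ : ∃ r, s = e + (r + 1) := ⟨s - e - 1, by omega⟩
      have hps : p ^ s = p ^ e * p ^ (r + 1) := by rw [hr, pow_add]
      have hlt : p ^ (r + 1) < m := by
        have := hs; rw [hps, hm] at this; exact Nat.lt_of_mul_lt_mul_left this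
      have he0 : c (p ^ e) = 0 := h0 (lt_of_lt_of_le
        (Nat.pow_lt_pow_right hp.out.one_lt (by omega : e < s)) hs.le)
      rw [hc.symm (p ^ s) (Nat.one_le_pow _ _ hp.out.pos) hs]
      have hi : d - p ^ s = p ^ e * (m - p ^ (r + 1)) := by rw [Nat.mul_sub, ← hm, ← hps]
      have hpe : 0 < p ^ e := pow_pos hp.out.pos e
      have hdiv : ¬p ∣ (m - p ^ (r + 1)) := fun hdvd => hpm <| by
        have := Nat.dvd_add hdvd (dvd_pow_self p (Nat.succ_ne_zero r))
        rwa [Nat.sub_add_cancel hlt.le] at this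
      rcases (Nat.succ_le_of_lt (Nat.sub_pos_of_lt hlt)).eq_or_lt with h1 | h1
      · rw [hi, ← h1, Nat.succ_eq_add_one, zero_add, mul_one]
        exact he0
      · have hb : p ^ e < d - p ^ s := by rw [hi]; exact lt_mul_of_one_lt_right hpe h1
        have := hc.rel (p ^ e) (d - p ^ s - p ^ e) hpe (by omega)
          (by have := Nat.one_le_pow s p hp.out.pos; omega)
        rw [Nat.add_sub_cancel' hb.le, he0, mul_zero, cast_choose_pow, hi,
          Nat.mul_div_cancel_left _ hpe] at this
        rw [hi]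
        exact (mul_eq_zero.1 this).resolve_left (cast_ne_zero hdiv)
  intro i hi hid
  set s := padicValNat p i with hs
  obtain ⟨r, hr⟩ : p ^ s ∣ i := pow_padicValNat_dvd
  have hpr : ¬p ∣ r := fun hdvd => pow_succ_padicValNat_not_dvd (by omega : i ≠ 0) <| by
    rw [← hs, hr, pow_succ]; exact Nat.mul_dvd_mul_left _ hdvd
  have hle : p ^ s ≤ i := Nat.le_of_dvd (by omega) ⟨r, hr⟩
  rcases hle.eq_or_lt with h | h
  · exact h ▸ hpow s (h ▸ hid)
  · have := hc.rel (p ^ s) (i - p ^ s) (Nat.one_le_pow _ _ hp.out.pos) (by omega) (by omega)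
    rw [Nat.add_sub_cancel' hle, hpow s (by omega), mul_zero, cast_choose_pow] at this
    nth_rw 1 [hr] at this
    rw [Nat.mul_div_cancel_left _ (pow_pos hp.out.pos s)] at this
    exact (mul_eq_zero.1 this).resolve_left (cast_ne_zero hpr)

omit [CharP k p] in
/-- `C_d` is a cocycle. -/
theorem isHomCocycle_cdCoeff (d : ℕ) : IsHomCocycle d (fun i => (cdCoeff p d i : k)) := by
  refine ⟨fun i hi hid => by simp only [cdCoeff, Nat.choose_symm hid.le], fun a b ha hb hab => ?_⟩
  have key := Nat.choose_mul (n := d) (k := a + b) (s := a) (Nat.le_add_right a b)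
  rw [Nat.add_sub_cancel_left] at key
  simp only [← Nat.cast_mul]
  congr 1
  unfold cdCoeff
  split_ifs with h
  · have hdvd : ∀ i, 1 ≤ i → i < d → p ∣ d.choose i := fun i h1 h2 => by
      rw [h]
      exact hp.out.dvd_choose_pow (by omega) (h ▸ h2.ne)
    obtain ⟨x, hx⟩ := hdvd (a + b) (by omega) hab
    obtain ⟨y, hy⟩ := hdvd a ha (by omega)
    rw [hx, hy] at key ⊢
    rw [Nat.mul_div_cancel_left _ hp.out.pos, Nat.mul_div_cancel_left _ hp.out.pos]
    apply Nat.eq_of_mul_eq_mul_left hp.out.pos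
    calc p * ((a + b).choose a * x) = p * x * (a + b).choose a := by ring
      _ = p * y * (d - a).choose b := key
      _ = p * ((d - a).choose b * y) := by ring
  · calc (a + b).choose a * d.choose (a + b) = d.choose (a + b) * (a + b).choose a := by ring
      _ = d.choose a * (d - a).choose b := key
      _ = _ := by ring

/-- The pivot coefficient of `C_d` is not zero. -/
theorem cdCoeff_pivot_ne_zero {d : ℕ} (hd : 2 ≤ d) :
    (cdCoeff p d (p ^ pivot p d) : k) ≠ 0 ∧ p ^ pivot p d < d := by
  set v := padicValNat p d with hv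
  by_cases h : d = p ^ v
  · have hv1 : 1 ≤ v := by
      by_contra h1
      rw [show v = 0 by omega, pow_zero] at h
      omega
    have hlt : p ^ (v - 1) < d := by
      rw [h]; exact Nat.pow_lt_pow_right hp.out.one_lt (by omega)
    simp only [cdCoeff, pivot, ← hv, if_pos h]
    refine ⟨cast_ne_zero ?_, hlt⟩
    intro hdvd
    have h2 : p * p ∣ d.choose (p ^ (v - 1)) := by
      have h3 := hp.out.dvd_choose_pow (n := v) (k := p ^ (v - 1)) (pow_ne_zero _ hp.out.ne_zero)
        (h ▸ hlt.ne)
      rw [← h] at h3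
      obtain ⟨w, hw⟩ := h3
      rw [hw, Nat.mul_div_cancel_left _ hp.out.pos] at hdvd
      rw [hw]
      exact Nat.mul_dvd_mul_left p hdvd
    have h4 := Nat.factorization_choose_prime_pow hp.out (n := v)
      (Nat.pow_le_pow_right hp.out.pos (by omega : v - 1 ≤ v)) (pow_ne_zero _ hp.out.ne_zero)
    rw [← h, hp.out.factorization_pow, Finsupp.single_eq_same] at h4
    have h5 := (hp.out.pow_dvd_iff_le_factorization (Nat.choose_pos hlt.le).ne').1
      (show p ^ 2 ∣ d.choose (p ^ (v - 1)) by rwa [sq])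
    omega
  · obtain ⟨m, hm⟩ : p ^ v ∣ d := pow_padicValNat_dvd
    have hlt : p ^ v < d := lt_of_le_of_ne (Nat.le_of_dvd (by omega) ⟨m, hm⟩) (Ne.symm h)
    simp only [cdCoeff, pivot, ← hv, if_neg h]
    refine ⟨?_, hlt⟩
    rw [cast_choose_pow]
    refine cast_ne_zero fun hdvd => pow_succ_padicValNat_not_dvd (p := p) (n := d) (by omega) ?_
    rw [← hv]
    nth_rw 1 [hm] at hdvd
    rw [Nat.mul_div_cancel_left _ (pow_pos hp.out.pos v)] at hdvd
    rw [hm, pow_succ]
    exact Nat.mul_dvd_mul_left _ hdvd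

/-- Lazard's symmetric cocycle lemma in characteristic `p`. -/
theorem IsHomCocycle.exists_eq_smul {d : ℕ} {c : ℕ → k} (hc : IsHomCocycle d c) :
    ∃ a : k, ∀ i, 1 ≤ i → i < d → c i = a * (cdCoeff p d i : k) := by
  rcases Nat.lt_or_ge d 2 with hd | hd
  · exact ⟨0, fun i h1 h2 => by omega⟩
  obtain ⟨hne, -⟩ := cdCoeff_pivot_ne_zero (p := p) (k := k) hd
  set a := c (p ^ pivot p d) / (cdCoeff p d (p ^ pivot p d) : k) with ha
  have hw := isHomCocycle_cdCoeff (p := p) (k := k) d
  have hdiff : IsHomCocycle d (fun i => c i - a * (cdCoeff p d i : k)) :=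
    ⟨fun i h1 h2 => by rw [hc.symm i h1 h2, hw.symm i h1 h2],
      fun x y hx hy hxy => by
        linear_combination hc.rel x y hx hy hxy - a * hw.rel x y hx hy hxy⟩
  exact ⟨a, fun i h1 h2 => sub_eq_zero.1 (hdiff.eq_zero
    (fun _ => by rw [ha, div_mul_cancel₀ _ hne, sub_self]) i h1 h2)⟩

end Vale.Agent.P217.FG
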