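import Vale.Agent.P217.FG.CocycleSeries

/-!
# P217: all cocycles of a formal group law of height `n` in characteristic `p`

If `G ≡ X + Y` below degree `p ^ n` with nonzero pivot in degree `p ^ n`, and `D i` are cocycles
starting in degree `p ^ i` with nonzero pivot (`1 ≤ i < n`), then every symmetric cocycle is
uniquely `∑ a i • D i` plus a coboundary.
-/

noncomputable section

namespace Vale.Agent.P217.FG

open MvPowerSeries Finsupp Finset

variable {R : Type*} [CommRing R]

lemma low_smul {τ : Type*} {a : ℕ} {f : MvPowerSeries τ R} (hf : Low a f) (r : R) :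
    Low a (r • f) := fun e he => by rw [coeff_smul, hf e he, mul_zero]

lemma Low.sub {τ : Type*} {a : ℕ} {f g : MvPowerSeries τ R} (hf : Low a f) (hg : Low a g) :
    Low a (f - g) := fun e he => by rw [map_sub, hf e he, hg e he, sub_zero]

lemma constantCoeff_fin2 (G : FormalGroup R) {τ : Type*} {a b : MvPowerSeries τ R}
    (ha : a.constantCoeff = 0) (hb : b.constantCoeff = 0) :
    (G.toPowerSeries.subst ![a, b]).constantCoeff = 0 :=
  constantCoeff_subst_eq_zero
    (hasSubst_of_constantCoeff_zero fun i => by fin_cases i <;> simpa)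
    (fun i => by fin_cases i <;> simpa) G.zero_constantCoeff

/-- The coboundary of `ψ`. -/
def cobd (G : FormalGroup R) (ψ : PowerSeries R) : MvPowerSeries (Fin 2) R :=
  PowerSeries.subst G.toPowerSeries ψ - PowerSeries.subst (MvPowerSeries.X 0) ψ -
    PowerSeries.subst (MvPowerSeries.X 1) ψ

/-- The coboundary of `x ^ m`. -/
def cobdPow (G : FormalGroup R) (m : ℕ) : MvPowerSeries (Fin 2) R :=
  G.toPowerSeries ^ m - MvPowerSeries.X 0 ^ m - MvPowerSeries.X 1 ^ m

lemma coeff_subst_range {τ : Type*} {g : MvPowerSeries τ R} (hg : g.constantCoeff = 0)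
    (ψ : PowerSeries R) (v : τ →₀ ℕ) :
    coeff v (PowerSeries.subst g ψ) =
      ∑ m ∈ range (v.degree + 1), PowerSeries.coeff m ψ * coeff v (g ^ m) := by
  rw [PowerSeries.coeff_subst (PowerSeries.HasSubst.of_constantCoeff_zero hg),
    finsum_eq_sum_of_support_subset _ (s := range (v.degree + 1))]
  · simp
  · intro m hm
    simp only [Finset.mem_coe, mem_range]
    by_contra h
    exact hm (by
      beta_reduce
      rw [(low_one_of_constantCoeff hg).pow m v (by omega), smul_zero])

lemma coeff_cobd (G : FormalGroup R) (ψ : PowerSeries R) (v : Fin 2 →₀ ℕ) :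
    coeff v (cobd G ψ) =
      ∑ m ∈ range (v.degree + 1), PowerSeries.coeff m ψ * coeff v (cobdPow G m) := by
  simp only [cobd, cobdPow, map_sub, mul_sub, Finset.sum_sub_distrib]
  rw [coeff_subst_range G.zero_constantCoeff, coeff_subst_range (by simp),
    coeff_subst_range (by simp)]

lemma low_cobdPow (G : FormalGroup R) (m : ℕ) : Low m (cobdPow G m) := by
  have h : ∀ {f : MvPowerSeries (Fin 2) R}, f.constantCoeff = 0 → Low m (f ^ m) := fun {f} hf => by
    simpa using (low_one_of_constantCoeff hf).pow m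
  exact ((h G.zero_constantCoeff).sub (h (by simp))).sub (h (by simp))

/-- Cocycles form a module. -/
lemma IsCocycle.smul_add {F : FormalGroup R} {c c' : MvPowerSeries (Fin 2) R} (r : R)
    (hc : IsCocycle F c) (hc' : IsCocycle F c') : IsCocycle F (r • c + c') := by
  have hsub : ∀ {A B : MvPowerSeries (Fin 3) R}, A.constantCoeff = 0 → B.constantCoeff = 0 →
      (r • c + c').subst ![A, B] = r • c.subst ![A, B] + c'.subst ![A, B] := fun {A B} ha hb => by
    have h : HasSubst ![A, B] :=
      hasSubst_of_constantCoeff_zero fun i => by fin_cases i <;> simpa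
    rw [subst_add h, subst_smul h]
  refine ⟨fun i => ?_, fun j => ?_, fun i j => ?_, ?_⟩
  · rw [map_add, coeff_smul, hc.left_zero, hc'.left_zero, mul_zero, add_zero]
  · rw [map_add, coeff_smul, hc.right_zero, hc'.right_zero, mul_zero, add_zero]
  · rw [map_add, map_add, coeff_smul, coeff_smul, hc.symm, hc'.symm]
  · rw [hsub (by simp) (by simp), hsub (constantCoeff_fin2 F (by simp) (by simp)) (by simp),
      hsub (by simp) (constantCoeff_fin2 F (by simp) (by simp)), hsub (by simp) (by simp)]
    have h1 := congrArg (r • ·) hc.cocycle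
    have h2 := hc'.cocycle
    beta_reduce at h1
    rw [_root_.smul_add, _root_.smul_add] at h1
    linear_combination h1 + h2

lemma IsCocycle.zero (F : FormalGroup R) : IsCocycle F 0 := by
  refine ⟨fun _ => by simp, fun _ => by simp, fun _ _ => by simp, ?_⟩
  have hsub : ∀ {A B : MvPowerSeries (Fin 3) R}, A.constantCoeff = 0 → B.constantCoeff = 0 →
      (0 : MvPowerSeries (Fin 2) R).subst ![A, B] = 0 := fun {A B} ha hb => by
    rw [← substAlgHom_apply (hasSubst_of_constantCoeff_zero
      (a := ![A, B]) fun i => by fin_cases i <;> simpa), map_zero]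
  rw [hsub (by simp) (by simp), hsub (constantCoeff_fin2 F (by simp) (by simp)) (by simp),
    hsub (by simp) (constantCoeff_fin2 F (by simp) (by simp)), hsub (by simp) (by simp)]

/-- Coboundaries are cocycles. -/
lemma isCocycle_cobdPow (G : FormalGroup R) [G.IsComm] {m : ℕ} (hm : m ≠ 0) :
    IsCocycle G (cobdPow G m) := by
  have hsub : ∀ {τ : Type} {A B : MvPowerSeries τ R}, A.constantCoeff = 0 → B.constantCoeff = 0 →
      (cobdPow G m).subst ![A, B] = G.toPowerSeries.subst ![A, B] ^ m - A ^ m - B ^ m := by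
    intro τ A B ha hb
    have h : HasSubst ![A, B] :=
      hasSubst_of_constantCoeff_zero fun i => by fin_cases i <;> simpa
    rw [cobdPow, ← substAlgHom_apply h]
    simp only [map_sub, map_pow]
    simp [substAlgHom_apply, subst_X h]
  have hax : ∀ {a b : MvPowerSeries Unit R}, a.constantCoeff = 0 → b.constantCoeff = 0 →
      ∀ w, coeff w ((cobdPow G m).subst ![a, b]) =
        coeff w (G.toPowerSeries.subst ![a, b] ^ m - a ^ m - b ^ m) := fun ha hb w => by
    rw [hsub ha hb]
  have hu : ∀ i : ℕ, coeff (idx i 0) (cobdPow G m) =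
      coeff (Finsupp.single () i) ((cobdPow G m).subst ![(MvPowerSeries.X () : MvPowerSeries Unit R), 0]) := by
    intro i
    rw [coeff_subst HasSubst.X_zero, finsum_eq_single _ (idx i 0)]
    · simp [idx, Finsupp.prod_pow, X_pow_eq, coeff_monomial]
    · intro v hv
      by_cases h1 : v 1 = 0
      · have : v 0 ≠ i := fun h => hv (by rw [eq_idx v, h, h1])
        simp [Finsupp.prod_pow, h1, X_pow_eq, coeff_monomial, Finsupp.single_eq_single_iff,
          Ne.symm this]
      · simp [Finsupp.prod_pow, h1]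
  have hsym : ∀ i j, coeff (idx i j) (cobdPow G m) = coeff (idx j i) (cobdPow G m) := by
    intro i j
    have h1 : (cobdPow G m).subst ![MvPowerSeries.X 1, MvPowerSeries.X 0] = cobdPow G m := by
      rw [hsub (by simp) (by simp), ← (inferInstance : G.IsComm).comm]
      simp [cobdPow]; ring
    conv_lhs => rw [← h1]
    rw [coeff_subst HasSubst.X_X, finsum_eq_single _ (idx j i)]
    · have : idx i j = Finsupp.single (1 : Fin 2) j + Finsupp.single 0 i := add_comm _ _
      simp [Finsupp.prod_pow, X_pow_eq, monomial_mul_monomial, coeff_monomial, idx, this]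
    · intro v hv
      simp only [Finsupp.prod_pow, Fin.prod_univ_two, Matrix.cons_val_zero, Matrix.cons_val_one,
        X_pow_eq, monomial_mul_monomial, one_mul, coeff_monomial]
      rw [if_neg, smul_zero]
      exact fun h => hv (by
        rw [eq_idx v]
        congr 2
        · simpa using (DFunLike.congr_fun h 1).symm
        · simpa using (DFunLike.congr_fun h 0).symm)
  have hl : ∀ i, coeff (idx i 0) (cobdPow G m) = 0 := fun i => by
    rw [hu, hax (a := (MvPowerSeries.X () : MvPowerSeries Unit R)) (b := 0) (by simp) (map_zero _),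
      G.add_zero (PowerSeries.HasSubst.of_constantCoeff_zero (by simp))]
    simp [zero_pow hm]
  refine ⟨hl, fun j => (hsym 0 j).trans (hl j), hsym, ?_⟩
  have hX : ∀ s : Fin 3, (MvPowerSeries.X s : MvPowerSeries (Fin 3) R).constantCoeff = 0 := by simp
  rw [hsub (hX 0) (hX 1), hsub (constantCoeff_fin2 G (hX 0) (hX 1)) (hX 2),
    hsub (hX 0) (constantCoeff_fin2 G (hX 1) (hX 2)), hsub (hX 1) (hX 2),
    G.assoc' (PowerSeries.HasSubst.of_constantCoeff_zero (hX 0))
      (PowerSeries.HasSubst.of_constantCoeff_zero (hX 1))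
      (PowerSeries.HasSubst.of_constantCoeff_zero (hX 2))]
  ring

section Field

variable {p : ℕ} [hp : Fact p.Prime] {k : Type*} [Field k] [CharP k p]

/-- The pivot index in degree `d`. -/
abbrev pidx (p d : ℕ) : Fin 2 →₀ ℕ := idx (p ^ pivot p d) (d - p ^ pivot p d)

lemma Low.succ_of_pivot {F : FormalGroup k} {c : MvPowerSeries (Fin 2) k} (hc : IsCocycle F c)
    {d : ℕ} (hlow : Low d c) (h : coeff (pidx p d) c = 0) : Low (d + 1) c := by
  intro v hv
  rcases (Nat.lt_succ_iff.1 hv).lt_or_eq with hv | hv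
  · exact hlow v hv
  rw [eq_idx v, degree_idx] at hv
  rw [eq_idx v]
  rcases Nat.eq_zero_or_pos (v 0) with h0 | h0
  · rw [h0]; exact hc.right_zero _
  rcases Nat.eq_zero_or_pos (v 1) with h1 | h1
  · rw [h1]; exact hc.left_zero _
  rw [show v 1 = d - v 0 by omega]
  exact (hc.isHomCocycle hlow).eq_zero (p := p) (fun _ => h) (v 0) h0 (by omega)

lemma pivot_pow (v : ℕ) : pivot p (p ^ v) = v - 1 := by
  simp [pivot, padicValNat.prime_pow]

variable (G : FormalGroup k) (n : ℕ) (D : ℕ → MvPowerSeries (Fin 2) k)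

/-- The hypotheses on the basis of cocycles. -/
structure Basis (p : ℕ) : Prop where
  one_le : 1 ≤ n
  low : Low (p ^ n) (G.toPowerSeries - (MvPowerSeries.X 0 + MvPowerSeries.X 1))
  pivot_ne : coeff (pidx p (p ^ n)) G.toPowerSeries ≠ 0
  cocycle : ∀ i, 1 ≤ i → i < n → IsCocycle G (D i)
  lowD : ∀ i, 1 ≤ i → i < n → Low (p ^ i) (D i)
  pivotD : ∀ i, 1 ≤ i → i < n → coeff (pidx p (p ^ i)) (D i) ≠ 0

/-- The degree in which the coboundary of `x ^ m` starts. -/
def degOf (p n m : ℕ) : ℕ := if m = p ^ padicValNat p m then p ^ (n + padicValNat p m) else m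

/-- The basis element starting in degree `d`. -/
def basisElt (p : ℕ) (d : ℕ) : MvPowerSeries (Fin 2) k :=
  if d = p ^ padicValNat p d then
    if padicValNat p d < n then D (padicValNat p d) else cobdPow G (p ^ (padicValNat p d - n))
  else cobdPow G d

variable {G n D}

lemma cobdPow_frob (hB : Basis G n D p) (e : ℕ) :
    Low (p ^ (n + e)) (cobdPow G (p ^ e)) ∧
      coeff (pidx p (p ^ (n + e))) (cobdPow G (p ^ e)) =
        coeff (pidx p (p ^ n)) G.toPowerSeries ^ p ^ e := by
  set H := G.toPowerSeries - (MvPowerSeries.X 0 + MvPowerSeries.X 1) with hH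
  have hp0 : (p : MvPowerSeries (Fin 2) k) = 0 := by
    rw [← map_natCast (MvPowerSeries.C (σ := Fin 2) (R := k)), CharP.cast_eq_zero, map_zero]
  have := charP_of_injective_ringHom (MvPowerSeries.C_injective (σ := Fin 2) (R := k)) p
  have heq : cobdPow G (p ^ e) = H ^ p ^ e := by
    rw [hH, sub_pow_char_pow, add_pow_char_pow, cobdPow]
    ring
  refine ⟨?_, ?_⟩
  · rw [heq, pow_add, mul_comm]
    exact hB.low.pow _
  · have hn := hB.one_le
    have hq : pidx p (p ^ (n + e)) = p ^ e • pidx p (p ^ n) := by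
      simp only [pidx, idx, pivot_pow, smul_add, Finsupp.smul_single, smul_eq_mul, Nat.mul_sub,
        ← pow_add]
      rw [show e + (n - 1) = n + e - 1 by omega, add_comm e n]
    have hpow : H ^ p ^ e = expand (p ^ e) (pow_ne_zero _ hp.out.ne_zero)
        (MvPowerSeries.map (iterateFrobenius k p e) H) := by
      rw [← map_iterateFrobenius_expand p hp.out.ne_zero, map_expand]
    rw [heq, hpow, hq, coeff_expand_smul, coeff_map, iterateFrobenius_def]
    congr 1
    have hne : p ^ (n - 1) ≠ 0 ∧ p ^ (n - 1) < p ^ n :=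
      ⟨pow_ne_zero _ hp.out.ne_zero, Nat.pow_lt_pow_right hp.out.one_lt (by omega)⟩
    rw [hH, map_sub, map_add, coeff_X, coeff_X, if_neg, if_neg, add_zero, sub_zero]
    · exact fun h => hne.1 (by simpa [pidx, idx, pivot_pow] using DFunLike.congr_fun h 0)
    · exact fun h => by
        have := DFunLike.congr_fun h 1
        simp [pidx, idx, pivot_pow] at this
        omega

lemma cobdPow_nonpow (G : FormalGroup k) {d : ℕ} (hd : 2 ≤ d) (h : d ≠ p ^ padicValNat p d) :
    coeff (pidx p d) (cobdPow G d) = (cdCoeff p d (p ^ pivot p d) : k) := by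
  classical
  obtain ⟨-, hlt⟩ := cdCoeff_pivot_ne_zero (p := p) (k := k) hd
  have h1 : 1 ≤ p ^ pivot p d := Nat.one_le_pow _ _ hp.out.pos
  set a := p ^ pivot p d
  set L : MvPowerSeries (Fin 2) k := MvPowerSeries.X 0 + MvPowerSeries.X 1
  have hL : Low 1 L := low_one_of_constantCoeff (by simp [L])
  have hG2 : Low 2 (G.toPowerSeries - L) := by
    intro x hx
    rw [eq_idx x, degree_idx] at hx
    rw [eq_idx x, map_sub, map_add]
    rcases Nat.eq_zero_or_pos (x 0) with h0 | h0 <;> rcases Nat.eq_zero_or_pos (x 1) with h2 | h2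
    · simp [idx, h0, h2, G.zero_constantCoeff]
    · simp [idx, h0, show x 1 = 1 by omega, G.lin_coeff_Y, coeff_index_single_X]
    · simp [idx, h2, show x 0 = 1 by omega, G.lin_coeff_X, coeff_index_single_X]
    · omega
  have hdeg : (idx a (d - a)).degree = d := by rw [degree_idx]; omega
  have h2 := low_pow_mul_pow_sub (low_one_of_constantCoeff G.zero_constantCoeff) hL hL hL hG2
    (fun x _ => by simp) d 0 (idx a (d - a)) (by omega)
  rw [map_sub, sub_eq_zero, pow_zero, mul_one, mul_one] at h2
  rw [cobdPow, map_sub, map_sub, h2, X_pow_eq, X_pow_eq, coeff_monomial, coeff_monomial, if_neg,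
    if_neg, sub_zero, sub_zero, cdCoeff, if_neg h]
  · simp only [L, add_pow, map_sum, X_pow_eq, monomial_mul_monomial, one_mul,
      ← map_natCast (MvPowerSeries.C (σ := Fin 2) (R := k)), ← monomial_zero_eq_C_apply,
      add_zero, coeff_monomial]
    rw [Finset.sum_eq_single a (fun x _ hx => if_neg fun h' => hx ?_)
      (fun h' => absurd (mem_range.2 (by omega)) h'), if_pos rfl]
    simpa [idx] using (DFunLike.congr_fun h' 0).symm
  all_goals
    intro h'
    have e0 := DFunLike.congr_fun h' 0
    have e1 := DFunLike.congr_fun h' 1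
    simp at e0 e1
    omega

lemma basisElt_spec [G.IsComm] (hB : Basis G n D p) {d : ℕ} (hd : 2 ≤ d) :
    IsCocycle G (basisElt G n D p d) ∧ Low d (basisElt G n D p d) ∧
      coeff (pidx p d) (basisElt G n D p d) ≠ 0 := by
  unfold basisElt
  split_ifs with h h'
  · have hv : 1 ≤ padicValNat p d := by
      by_contra hv
      rw [show padicValNat p d = 0 by omega, pow_zero] at h
      omega
    refine ⟨hB.cocycle _ hv h', ?_, ?_⟩
    · have := hB.lowD _ hv h'
      rwa [← h] at this
    · have := hB.pivotD _ hv h'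
      rwa [← h] at this
  · obtain ⟨e, he⟩ : ∃ e, padicValNat p d = n + e := ⟨padicValNat p d - n, by omega⟩
    rw [he] at h
    rw [he, Nat.add_sub_cancel_left]
    obtain ⟨h1, h2⟩ := cobdPow_frob hB e
    refine ⟨isCocycle_cobdPow G (pow_ne_zero _ hp.out.ne_zero), ?_, ?_⟩
    · rwa [h]
    · rw [h, h2]
      exact pow_ne_zero _ hB.pivot_ne
  · exact ⟨isCocycle_cobdPow G (by omega), low_cobdPow G d, by
      rw [cobdPow_nonpow G hd h]; exact (cdCoeff_pivot_ne_zero hd).1⟩

lemma basisElt_pow {i : ℕ} (hi : i < n) : basisElt G n D p (p ^ i) = D i := by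
  simp [basisElt, padicValNat.prime_pow, hi]

lemma basisElt_degOf (m : ℕ) : basisElt G n D p (degOf p n m) = cobdPow G m := by
  unfold degOf
  split_ifs with h
  · simp [basisElt, padicValNat.prime_pow, ← h]
  · simp [basisElt, h]

lemma le_degOf (m : ℕ) : m ≤ degOf p n m := by
  unfold degOf
  split_ifs with h
  · conv_lhs => rw [h]
    exact Nat.pow_le_pow_right hp.out.pos (by omega)
  · exact le_rfl

lemma two_le_degOf {m : ℕ} (hn : 1 ≤ n) (hm : 1 ≤ m) : 2 ≤ degOf p n m := by
  unfold degOf
  split_ifs with h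
  · exact hp.out.two_le.trans (Nat.le_self_pow (by omega) p)
  · by_contra h'
    exact h (by rw [show m = 1 by omega]; simp)

/-- Every degree is `p ^ i` with `1 ≤ i < n` or some `degOf m`, and only one of them. -/
lemma degree_cases {d : ℕ} (hd : 2 ≤ d) :
    (∃ i, 1 ≤ i ∧ i < n ∧ d = p ^ i) ∨ ∃ m, 1 ≤ m ∧ d = degOf p n m := by
  by_cases h : d = p ^ padicValNat p d
  · rcases Nat.lt_or_ge (padicValNat p d) n with h' | h'
    · refine Or.inl ⟨_, ?_, h', h⟩
      by_contra hv
      rw [show padicValNat p d = 0 by omega, pow_zero] at h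
      omega
    · refine Or.inr ⟨p ^ (padicValNat p d - n), Nat.one_le_pow _ _ hp.out.pos, ?_⟩
      unfold degOf
      rw [padicValNat.prime_pow, if_pos rfl, Nat.add_sub_cancel' h']
      exact h
  · exact Or.inr ⟨d, by omega, by simp [degOf, h]⟩

lemma degOf_ne_pow {i m : ℕ} (hi : i < n) : degOf p n m ≠ p ^ i := by
  unfold degOf
  split_ifs with h
  · exact fun e => by
      have := Nat.pow_right_injective hp.out.two_le e
      omega
  · exact fun e => h (by rw [e, padicValNat.prime_pow])

lemma degOf_injective {a b : ℕ} (h : degOf p n a = degOf p n b) : a = b := by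
  unfold degOf at h
  split_ifs at h with ha hb hb
  · rw [ha, hb, show padicValNat p a = padicValNat p b from
      Nat.add_left_cancel (Nat.pow_right_injective hp.out.two_le h)]
  · exact absurd (by rw [← h, padicValNat.prime_pow]) hb
  · exact absurd (by rw [h, padicValNat.prime_pow]) ha
  · exact h

/-- The coefficients of a combination of basis elements, in terms of `D` and the coboundary. -/
lemma sum_basisElt (hn : 1 ≤ n) (lowB : ∀ d, 2 ≤ d → Low d (basisElt G n D p d)) (β : ℕ → k)
    (v : Fin 2 →₀ ℕ) :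
    coeff v ((∑ i ∈ Ico 1 n, β (p ^ i) • D i) +
        cobd G (PowerSeries.mk fun m => if m = 0 then 0 else β (degOf p n m))) =
      ∑ d ∈ Ico 2 (v.degree + 1), β d * coeff v (basisElt G n D p d) := by
  classical
  set N := v.degree + 1
  have hzero : ∀ d, 2 ≤ d → N ≤ d → coeff v (basisElt G n D p d) = 0 := fun d h1 h2 =>
    lowB d h1 v (by omega)
  rw [map_add, map_sum, coeff_cobd]
  simp only [coeff_smul, PowerSeries.coeff_mk]
  have h1 : ∑ i ∈ Ico 1 n, β (p ^ i) * coeff v (D i) =
      ∑ d ∈ ((Ico 1 n).image (p ^ ·)).filter (· < N), β d * coeff v (basisElt G n D p d) := by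
    rw [Finset.sum_filter_of_ne, sum_image fun a _ b _ h => Nat.pow_right_injective hp.out.two_le h]
    · exact Finset.sum_congr rfl fun i hi => by rw [basisElt_pow (Finset.mem_Ico.1 hi).2]
    · intro d hd hne
      by_contra h
      obtain ⟨i, hi, rfl⟩ := Finset.mem_image.1 hd
      have h2 : 2 ≤ p ^ i :=
        hp.out.two_le.trans (Nat.le_self_pow (by have := Finset.mem_Ico.1 hi; omega) p)
      exact hne (by rw [hzero _ h2 (not_lt.1 h), mul_zero])
  have h2 : ∑ m ∈ range N, (if m = 0 then 0 else β (degOf p n m)) * coeff v (cobdPow G m) =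
      ∑ d ∈ ((Ico 1 N).image (degOf p n)).filter (· < N),
        β d * coeff v (basisElt G n D p d) := by
    rw [Finset.sum_filter_of_ne, sum_image fun a _ b _ h => degOf_injective h,
      ← Finset.sum_subset (s₁ := Ico 1 N) (s₂ := range N)]
    · exact Finset.sum_congr rfl fun m hm => by
        rw [basisElt_degOf, if_neg (by have := Finset.mem_Ico.1 hm; omega)]
    · intro m hm; simp at hm ⊢; omega
    · intro m hm hm'
      have : m = 0 := by simp at hm hm'; omega
      simp [this]
    · intro d hd hne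
      by_contra h
      obtain ⟨m, hm, rfl⟩ := Finset.mem_image.1 hd
      exact hne (by rw [hzero _ (two_le_degOf hn (Finset.mem_Ico.1 hm).1) (not_lt.1 h), mul_zero])
  rw [h1, h2, ← Finset.sum_union]
  · refine Finset.sum_congr ?_ fun _ _ => rfl
    ext d
    simp only [Finset.mem_union, Finset.mem_filter, Finset.mem_image, Finset.mem_Ico]
    constructor
    · rintro (⟨⟨i, hi, rfl⟩, h⟩ | ⟨⟨m, hm, rfl⟩, h⟩)
      · exact ⟨hp.out.two_le.trans (Nat.le_self_pow (by omega) p), h⟩
      · exact ⟨two_le_degOf hn hm.1, h⟩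
    · rintro ⟨hd, h⟩
      rcases degree_cases (n := n) (p := p) hd with ⟨i, h1, h2, rfl⟩ | ⟨m, hm, rfl⟩
      · exact Or.inl ⟨⟨i, ⟨h1, h2⟩, rfl⟩, h⟩
      · exact Or.inr ⟨⟨m, ⟨hm, by have := le_degOf (p := p) (n := n) m; omega⟩, rfl⟩, h⟩
  · rw [Finset.disjoint_left]
    intro d hd hd'
    obtain ⟨i, hi, rfl⟩ := Finset.mem_image.1 (Finset.mem_filter.1 hd).1
    obtain ⟨m, -, hm⟩ := Finset.mem_image.1 (Finset.mem_filter.1 hd').1
    exact degOf_ne_pow (Finset.mem_Ico.1 hi).2 hm

/-- Every symmetric cocycle is a combination of the `D i` and a coboundary. -/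
theorem exists_decomposition [G.IsComm] (hB : Basis G n D p) {c : MvPowerSeries (Fin 2) k}
    (hc : IsCocycle G c) :
    ∃ (a : ℕ → k) (ψ : PowerSeries k), PowerSeries.constantCoeff ψ = 0 ∧
      c = (∑ i ∈ Ico 1 n, a i • D i) + cobd G ψ := by
  classical
  let st : ℕ → (MvPowerSeries (Fin 2) k) := fun d => Nat.rec c (fun d r =>
    if d < 2 then r else
      r - (coeff (pidx p d) r / coeff (pidx p d) (basisElt G n D p d)) • basisElt G n D p d) d
  let β : ℕ → k := fun d => coeff (pidx p d) (st d) / coeff (pidx p d) (basisElt G n D p d)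
  have st0 : st 0 = c := rfl
  have st_succ : ∀ d, st (d + 1) =
      if d < 2 then st d else st d - β d • basisElt G n D p d := fun d => rfl
  have hst : ∀ d, IsCocycle G (st d) ∧ Low d (st d) ∧
      ∀ v, coeff v (st d) = coeff v c -
        ∑ j ∈ Ico 2 d, β j * coeff v (basisElt G n D p j) := by
    intro d
    induction d with
    | zero => exact ⟨hc, fun v hv => absurd hv (Nat.not_lt_zero _), fun v => by simp [st0]⟩
    | succ d ih =>
      obtain ⟨h1, h2, h3⟩ := ih
      by_cases hd : d < 2
      · rw [st_succ, if_pos hd]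
        refine ⟨h1, fun v hv => ?_, fun v => ?_⟩
        · rw [eq_idx v, degree_idx] at hv
          rw [eq_idx v]
          rcases Nat.eq_zero_or_pos (v 0) with h0 | h0
          · rw [h0]; exact h1.right_zero _
          · rw [show v 1 = 0 by omega]; exact h1.left_zero _
        · rw [h3]
          congr 1
          rw [Finset.Ico_eq_empty (by omega), Finset.Ico_eq_empty (by omega)]
      · obtain ⟨b1, b2, b3⟩ := basisElt_spec hB (show 2 ≤ d by omega)
        have hsum : IsCocycle G (st d - β d • basisElt G n D p d) := by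
          have := IsCocycle.smul_add (-β d) b1 h1
          rwa [neg_smul, neg_add_eq_sub] at this
        rw [st_succ, if_neg hd]
        refine ⟨hsum, Low.succ_of_pivot (p := p) hsum (h2.sub (low_smul b2 _)) ?_, fun v => ?_⟩
        · rw [map_sub, coeff_smul, div_mul_cancel₀ _ b3, sub_self]
        · rw [map_sub, coeff_smul, h3, Finset.sum_Ico_succ_top (by omega)]
          ring
  refine ⟨fun i => β (p ^ i), PowerSeries.mk fun m => if m = 0 then 0 else β (degOf p n m),
    by simp, MvPowerSeries.ext fun v => ?_⟩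
  rw [sum_basisElt hB.one_le (fun d hd => (basisElt_spec hB hd).2.1) β v]
  have h := (hst (v.degree + 1)).2.1 v (Nat.lt_succ_self _)
  rw [(hst (v.degree + 1)).2.2, sub_eq_zero] at h
  exact h

/-- The combination is unique. -/
theorem eq_zero_of_decomposition [G.IsComm] (hB : Basis G n D p) {a : ℕ → k} {ψ : PowerSeries k}
    (hψ : PowerSeries.constantCoeff ψ = 0) (h : (∑ i ∈ Ico 1 n, a i • D i) + cobd G ψ = 0) :
    (∀ i ∈ Ico 1 n, a i = 0) ∧ ψ = 0 := by
  classical
  let β : ℕ → k := fun d =>
    if d = p ^ padicValNat p d then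
      if padicValNat p d < n then a (padicValNat p d)
      else PowerSeries.coeff (p ^ (padicValNat p d - n)) ψ
    else PowerSeries.coeff d ψ
  have hβ1 : ∀ i, i < n → β (p ^ i) = a i := fun i hi => by
    simp [β, padicValNat.prime_pow, hi]
  have hβ2 : ∀ m, β (degOf p n m) = PowerSeries.coeff m ψ := fun m => by
    unfold degOf
    split_ifs with hm
    · simp [β, padicValNat.prime_pow, ← hm]
    · simp [β, hm]
  have hmk : PowerSeries.mk (fun m => if m = 0 then 0 else β (degOf p n m)) = ψ := by
    ext m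
    rw [PowerSeries.coeff_mk]
    split_ifs with hm
    · rw [hm, PowerSeries.coeff_zero_eq_constantCoeff_apply, hψ]
    · exact hβ2 m
  have hsum : ∀ v : Fin 2 →₀ ℕ,
      ∑ d ∈ Ico 2 (v.degree + 1), β d * coeff v (basisElt G n D p d) = 0 := fun v => by
    rw [← sum_basisElt hB.one_le (fun d hd => (basisElt_spec hB hd).2.1) β v, hmk,
      Finset.sum_congr rfl fun i hi => by rw [hβ1 i (Finset.mem_Ico.1 hi).2], h, map_zero]
  have hzero : ∀ d, 2 ≤ d → β d = 0 := by
    intro d
    induction d using Nat.strong_induction_on with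
    | _ d ih =>
    intro hd
    obtain ⟨-, -, b3⟩ := basisElt_spec hB hd
    have hdeg : (pidx p d).degree = d := by
      have := (cdCoeff_pivot_ne_zero (p := p) (k := k) hd).2
      rw [degree_idx]; omega
    have := hsum (pidx p d)
    rw [hdeg, Finset.sum_Ico_succ_top (by omega),
      Finset.sum_eq_zero (fun j hj => by
        rw [ih j (Finset.mem_Ico.1 hj).2 (Finset.mem_Ico.1 hj).1, zero_mul]), zero_add] at this
    exact (mul_eq_zero.1 this).resolve_right b3
  refine ⟨fun i hi => ?_, ?_⟩
  · have hi' := Finset.mem_Ico.1 hi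
    rw [← hβ1 i hi'.2]
    exact hzero _ (hp.out.two_le.trans (Nat.le_self_pow (by omega) p))
  · ext m
    rcases Nat.eq_zero_or_pos m with rfl | hm
    · simp [hψ]
    · rw [map_zero, ← hβ2 m]
      exact hzero _ (two_le_degOf hB.one_le hm)

end Field

end Vale.Agent.P217.FG
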