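import Vale.Agent.P217.FG.Cocycle

/-!
# P217: the lowest form of a cocycle of a formal group law

The lowest nonzero homogeneous part of a normalised symmetric cocycle of any formal group law
satisfies the relations of a homogeneous symmetric cocycle.
-/

noncomputable section

namespace Vale.Agent.P217.FG

open MvPowerSeries Finsupp Finset

variable {R : Type*} [CommRing R] {τ : Type*}

/-- All coefficients of degree `< d` vanish. -/
def Low (d : ℕ) (f : MvPowerSeries τ R) : Prop := ∀ e : τ →₀ ℕ, e.degree < d → coeff e f = 0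

lemma low_iff {d : ℕ} {f : MvPowerSeries τ R} : Low d f ↔ (d : ℕ∞) ≤ f.order :=
  ⟨fun h => le_order fun e he => h e (by exact_mod_cast he),
    fun h _ he => coeff_of_lt_order (lt_of_lt_of_le (by exact_mod_cast he) h)⟩

lemma Low.mul {a b : ℕ} {f g : MvPowerSeries τ R} (hf : Low a f) (hg : Low b g) :
    Low (a + b) (f * g) := by
  rw [low_iff] at *
  push_cast
  exact (add_le_add hf hg).trans le_order_mul

lemma Low.add {a : ℕ} {f g : MvPowerSeries τ R} (hf : Low a f) (hg : Low a g) : Low a (f + g) :=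
  fun e he => by rw [map_add, hf e he, hg e he, add_zero]

lemma low_one_of_constantCoeff {f : MvPowerSeries τ R} (hf : f.constantCoeff = 0) : Low 1 f :=
  fun e he => by
    rw [(degree_eq_zero_iff e).1 (by omega), coeff_zero_eq_constantCoeff_apply, hf]

lemma Low.pow {a : ℕ} {f : MvPowerSeries τ R} (hf : Low a f) (m : ℕ) : Low (m * a) (f ^ m) := by
  induction m with
  | zero => intro e he; simp at he
  | succ m ih => rw [Nat.succ_mul, pow_succ]; exact ih.mul hf

lemma low_pow_mul_pow_sub {A A' B B' : MvPowerSeries τ R} (hA : Low 1 A) (hA' : Low 1 A')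
    (hB : Low 1 B) (hB' : Low 1 B') (dA : Low 2 (A - A')) (dB : Low 2 (B - B')) (i j : ℕ) :
    Low (i + j + 1) (A ^ i * B ^ j - A' ^ i * B' ^ j) := by
  induction i with
  | zero =>
    induction j with
    | zero => intro e he; simp
    | succ j ih =>
      have e1 : A ^ 0 * B ^ (j + 1) - A' ^ 0 * B' ^ (j + 1) =
          B * (A ^ 0 * B ^ j - A' ^ 0 * B' ^ j) + (B - B') * B' ^ j := by ring
      rw [e1]
      refine Low.add ?_ ?_
      · convert hB.mul ih using 1; omega
      · convert dB.mul (hB'.pow j) using 1; omega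
  | succ i ih =>
    have e1 : A ^ (i + 1) * B ^ j - A' ^ (i + 1) * B' ^ j =
        A * (A ^ i * B ^ j - A' ^ i * B' ^ j) + (A - A') * (A' ^ i * B' ^ j) := by ring
    rw [e1]
    refine Low.add ?_ ?_
    · convert hA.mul ih using 1; omega
    · convert dA.mul ((hA'.pow i).mul (hB'.pow j)) using 1; omega

/-- The index of `x ^ i y ^ j`. -/
abbrev idx (i j : ℕ) : Fin 2 →₀ ℕ := Finsupp.single 0 i + Finsupp.single 1 j

lemma eq_idx (v : Fin 2 →₀ ℕ) : v = idx (v 0) (v 1) := by
  ext s; fin_cases s <;> simp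

lemma degree_idx (i j : ℕ) : (idx i j).degree = i + j := by simp

/-- The degree `d` part of a substitution into a series which starts in degree `d`. -/
lemma coeff_subst_of_low {c : MvPowerSeries (Fin 2) R} {d : ℕ} (hc : Low d c)
    {A A' B B' : MvPowerSeries τ R} (hA : Low 1 A) (hA' : Low 1 A') (hB : Low 1 B)
    (hB' : Low 1 B') (dA : Low 2 (A - A')) (dB : Low 2 (B - B')) {e : τ →₀ ℕ}
    (he : e.degree = d) :
    coeff e (c.subst ![A, B]) =
      ∑ i ∈ range (d + 1), coeff (idx i (d - i)) c * coeff e (A' ^ i * B' ^ (d - i)) := by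
  classical
  have h0 : ∀ {f : MvPowerSeries τ R}, Low 1 f → f.constantCoeff = 0 := fun {f} hf => by
    rw [← coeff_zero_eq_constantCoeff_apply]; exact hf 0 (by simp)
  have hsub : HasSubst ![A, B] :=
    hasSubst_of_constantCoeff_zero fun i => by fin_cases i <;> simp [h0 hA, h0 hB]
  have hprod : ∀ v : Fin 2 →₀ ℕ,
      (v.prod fun s m => (![A, B] s) ^ m) = A ^ v 0 * B ^ v 1 := fun v => by
    rw [Finsupp.prod_pow, Fin.prod_univ_two]; rfl
  rw [coeff_subst hsub, finsum_eq_sum_of_support_subset _
    (s := (range (d + 1)).image fun i => idx i (d - i))]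
  · rw [sum_image fun i _ j _ h => by simpa using congrArg (fun v : Fin 2 →₀ ℕ => v 0) h]
    refine Finset.sum_congr rfl fun i hi => ?_
    have hi' := mem_range.1 hi
    rw [hprod, smul_eq_mul]
    congr 1
    have := low_pow_mul_pow_sub hA hA' hB hB' dA dB i (d - i) e (by omega)
    rw [map_sub, sub_eq_zero] at this
    simpa using this
  · intro v hv
    simp only [coe_image, Set.mem_image, Finset.mem_coe, mem_range]
    have hdeg : v.degree = v 0 + v 1 := by
      conv_lhs => rw [eq_idx v, degree_idx]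
    rcases Nat.lt_or_ge v.degree d with h | h
    · exact absurd (by simp [hc v h]) hv
    rcases h.eq_or_lt with h | h
    · exact ⟨v 0, by omega, by
        rw [show d - v 0 = v 1 by omega]; exact (eq_idx v).symm⟩
    · refine absurd ?_ hv
      beta_reduce
      rw [hprod, (hA.pow (v 0)).mul (hB.pow (v 1)) e (by omega), smul_zero]

/-- `c` is a normalised symmetric cocycle of `F`. -/
structure IsCocycle (F : FormalGroup R) (c : MvPowerSeries (Fin 2) R) : Prop where
  left_zero : ∀ i, coeff (idx i 0) c = 0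
  right_zero : ∀ j, coeff (idx 0 j) c = 0
  symm : ∀ i j, coeff (idx i j) c = coeff (idx j i) c
  cocycle : c.subst ![(MvPowerSeries.X 0 : MvPowerSeries (Fin 3) R), MvPowerSeries.X 1] +
      c.subst ![F.toPowerSeries.subst
          ![(MvPowerSeries.X 0 : MvPowerSeries (Fin 3) R), MvPowerSeries.X 1], MvPowerSeries.X 2] =
    c.subst ![(MvPowerSeries.X 0 : MvPowerSeries (Fin 3) R),
        F.toPowerSeries.subst ![MvPowerSeries.X 1, MvPowerSeries.X 2]] +
      c.subst ![(MvPowerSeries.X 1 : MvPowerSeries (Fin 3) R), MvPowerSeries.X 2]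

lemma coeff_X_add_X_pow_mul (a b e i j : ℕ) :
    coeff (Finsupp.single (0 : Fin 3) a + Finsupp.single 1 b + Finsupp.single 2 e)
        ((MvPowerSeries.X (0 : Fin 3) + MvPowerSeries.X 1 : MvPowerSeries (Fin 3) R) ^ i *
          MvPowerSeries.X 2 ^ j) =
      if a + b = i ∧ e = j then (i.choose a : R) else 0 := by
  classical
  simp only [add_pow, Finset.sum_mul, map_sum, X_pow_eq, monomial_mul_monomial, one_mul, mul_one,
    ← map_natCast (MvPowerSeries.C (σ := Fin 3) (R := R)),
    ← monomial_zero_eq_C_apply, coeff_monomial, add_zero]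
  have key : ∀ x y z : ℕ, (Finsupp.single (0 : Fin 3) a + Finsupp.single 1 b + Finsupp.single 2 e =
      Finsupp.single (0 : Fin 3) x + Finsupp.single 1 y + Finsupp.single 2 z) ↔
        a = x ∧ b = y ∧ e = z := fun x y z =>
    ⟨fun h => ⟨by simpa using DFunLike.congr_fun h 0, by simpa using DFunLike.congr_fun h 1,
      by simpa using DFunLike.congr_fun h 2⟩, by rintro ⟨rfl, rfl, rfl⟩; rfl⟩
  simp only [key]
  by_cases h : a + b = i ∧ e = j
  · rw [if_pos h, Finset.sum_eq_single a (fun x _ hx => if_neg fun h' => hx h'.1.symm)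
      (fun h' => absurd (mem_range.2 (by omega)) h'), if_pos ⟨rfl, by omega, h.2⟩]
  · rw [if_neg h]
    exact Finset.sum_eq_zero fun x hx => if_neg fun h' => h
      ⟨by have := mem_range.1 hx; omega, h'.2.2⟩

lemma coeff_X_pow_mul_X_add_X_pow (a b e i j : ℕ) :
    coeff (Finsupp.single (0 : Fin 3) a + Finsupp.single 1 b + Finsupp.single 2 e)
        (MvPowerSeries.X (0 : Fin 3) ^ i *
          (MvPowerSeries.X 1 + MvPowerSeries.X 2 : MvPowerSeries (Fin 3) R) ^ j) =
      if a = i ∧ b + e = j then (j.choose b : R) else 0 := by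
  classical
  simp only [add_pow, Finset.mul_sum, map_sum, X_pow_eq, monomial_mul_monomial, one_mul, mul_one,
    ← map_natCast (MvPowerSeries.C (σ := Fin 3) (R := R)),
    ← monomial_zero_eq_C_apply, coeff_monomial, add_zero, ← add_assoc]
  have key : ∀ x y z : ℕ, (Finsupp.single (0 : Fin 3) a + Finsupp.single 1 b + Finsupp.single 2 e =
      Finsupp.single (0 : Fin 3) x + Finsupp.single 1 y + Finsupp.single 2 z) ↔
        a = x ∧ b = y ∧ e = z := fun x y z =>
    ⟨fun h => ⟨by simpa using DFunLike.congr_fun h 0, by simpa using DFunLike.congr_fun h 1,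
      by simpa using DFunLike.congr_fun h 2⟩, by rintro ⟨rfl, rfl, rfl⟩; rfl⟩
  simp only [key]
  by_cases h : a = i ∧ b + e = j
  · rw [if_pos h, Finset.sum_eq_single b (fun y _ hy => if_neg fun h' => hy h'.2.1.symm)
      (fun h' => absurd (mem_range.2 (by omega)) h'), if_pos ⟨h.1, rfl, by omega⟩]
  · rw [if_neg h]
    exact Finset.sum_eq_zero fun y hy => if_neg fun h' => h
      ⟨h'.1, by have := mem_range.1 hy; omega⟩

/-- The lowest form of a cocycle satisfies the homogeneous relations. -/
theorem IsCocycle.isHomCocycle {F : FormalGroup R} {c : MvPowerSeries (Fin 2) R}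
    (hc : IsCocycle F c) {d : ℕ} (hlow : Low d c) :
    IsHomCocycle d (fun i => coeff (idx i (d - i)) c) := by
  classical
  refine ⟨fun i hi hid => by rw [hc.symm]; congr 3; omega, fun a b ha hb hab => ?_⟩
  obtain ⟨e, he⟩ : ∃ e, d = a + b + (e + 1) := ⟨d - a - b - 1, by omega⟩
  set v := Finsupp.single (0 : Fin 3) a + Finsupp.single 1 b + Finsupp.single 2 (e + 1) with hv
  have hvd : v.degree = d := by rw [hv, map_add, map_add]; simp; omega
  have hX : ∀ s : Fin 3, Low 1 (MvPowerSeries.X s : MvPowerSeries (Fin 3) R) := fun s =>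
    low_one_of_constantCoeff (by simp)
  have hz : ∀ (f : MvPowerSeries (Fin 3) R), Low 2 (f - f) := fun f x _ => by simp
  have hsubX : ∀ s t : Fin 3, HasSubst ![(MvPowerSeries.X s : MvPowerSeries (Fin 3) R),
      MvPowerSeries.X t] := fun s t => HasSubst.X_X
  have hF : ∀ s t : Fin 3, Low 2 (F.toPowerSeries.subst
      ![(MvPowerSeries.X s : MvPowerSeries (Fin 3) R), MvPowerSeries.X t] -
        (MvPowerSeries.X s + MvPowerSeries.X t)) := by
    intro s t
    set G := F.toPowerSeries - (MvPowerSeries.X 0 + MvPowerSeries.X 1) with hG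
    have hG2 : Low 2 G := by
      intro x hx
      rw [eq_idx x, degree_idx] at hx
      rw [hG, eq_idx x, map_sub, map_add]
      rcases Nat.eq_zero_or_pos (x 0) with h0 | h0 <;> rcases Nat.eq_zero_or_pos (x 1) with h1 | h1
      · simp [idx, h0, h1, F.zero_constantCoeff]
      · simp [idx, h0, show x 1 = 1 by omega, F.lin_coeff_Y, coeff_index_single_X]
      · simp [idx, h1, show x 0 = 1 by omega, F.lin_coeff_X, coeff_index_single_X]
      · omega
    have e1 : F.toPowerSeries.subst ![(MvPowerSeries.X s : MvPowerSeries (Fin 3) R),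
        MvPowerSeries.X t] - (MvPowerSeries.X s + MvPowerSeries.X t) =
        G.subst ![MvPowerSeries.X s, MvPowerSeries.X t] := by
      rw [hG, subst_sub (hsubX s t), subst_add (hsubX s t), subst_X (hsubX s t),
        subst_X (hsubX s t)]
      rfl
    rw [e1, low_iff]
    refine le_trans ?_ (le_order_subst (hsubX s t) _)
    refine le_trans (low_iff.1 hG2) ?_
    refine le_mul_of_one_le_left bot_le (le_iInf fun i => ?_)
    refine one_le_order_iff_constCoeff_eq_zero.2 ?_
    fin_cases i <;> simp
  have hFlow : ∀ s t : Fin 3, Low 1 (F.toPowerSeries.subst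
      ![(MvPowerSeries.X s : MvPowerSeries (Fin 3) R), MvPowerSeries.X t]) := fun s t =>
    low_one_of_constantCoeff (constantCoeff_subst_eq_zero (hsubX s t)
      (fun i => by fin_cases i <;> simp) F.zero_constantCoeff)
  have hXX : ∀ s t : Fin 3, Low 1 (MvPowerSeries.X s + MvPowerSeries.X t :
      MvPowerSeries (Fin 3) R) := fun s t => (hX s).add (hX t)
  have h := congrArg (coeff v) hc.cocycle
  rw [map_add, map_add,
    coeff_subst_of_low hlow (hX 0) (hX 0) (hX 1) (hX 1) (hz _) (hz _) hvd,
    coeff_subst_of_low hlow (hX 1) (hX 1) (hX 2) (hX 2) (hz _) (hz _) hvd,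
    coeff_subst_of_low hlow (hFlow 0 1) (hXX 0 1) (hX 2) (hX 2) (hF 0 1) (hz _) hvd,
    coeff_subst_of_low hlow (hX 0) (hX 0) (hFlow 1 2) (hXX 1 2) (hz _) (hF 1 2) hvd] at h
  simp only [hv, coeff_X_add_X_pow_mul, coeff_X_pow_mul_X_add_X_pow] at h
  have e01 : ∀ i j, coeff (Finsupp.single (0 : Fin 3) a + Finsupp.single 1 b +
      Finsupp.single 2 (e + 1))
      (MvPowerSeries.X (0 : Fin 3) ^ i * MvPowerSeries.X 1 ^ j : MvPowerSeries (Fin 3) R) = 0 := by
    intro i j
    rw [X_pow_eq, X_pow_eq, monomial_mul_monomial, coeff_monomial, if_neg]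
    exact fun h => by simpa using DFunLike.congr_fun h 2
  have e12 : ∀ i j, coeff (Finsupp.single (0 : Fin 3) a + Finsupp.single 1 b +
      Finsupp.single 2 (e + 1))
      (MvPowerSeries.X (1 : Fin 3) ^ i * MvPowerSeries.X 2 ^ j : MvPowerSeries (Fin 3) R) = 0 := by
    intro i j
    rw [X_pow_eq, X_pow_eq, monomial_mul_monomial, coeff_monomial, if_neg]
    exact fun h => by
      have h' : a = 0 := by simpa using DFunLike.congr_fun h 0
      omega
  simp only [e01, e12, mul_zero, Finset.sum_const_zero, zero_add, add_zero] at h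
  rw [Finset.sum_eq_single (a + b)
      (fun i _ hi => by rw [if_neg (fun h' => hi h'.1.symm), mul_zero])
      (fun h' => absurd (mem_range.2 (by omega)) h'),
    Finset.sum_eq_single a
      (fun i _ hi => by rw [if_neg (fun h' => hi h'.1.symm), mul_zero])
      (fun h' => absurd (mem_range.2 (by omega)) h'),
    if_pos ⟨rfl, by omega⟩, if_pos ⟨rfl, by omega⟩] at h
  linear_combination h

end Vale.Agent.P217.FG
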