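import Mathlib

/-!
# P217: Hazewinkel's functional equation lemma

A series over `K` is integral if it comes from `R`. For a logarithm `f` satisfying Hazewinkel's
recursion, `f⁻¹ Z` is integral as soon as `Z` satisfies the functional equation up to integral
terms; sums of values of `f` do.
-/

noncomputable section

namespace Vale.Agent.P217.FG

open MvPowerSeries Finsupp Finset

/-- The data of Hazewinkel's functional equation lemma. -/
structure Haz (p : ℕ) [Fact p.Prime] (R K : Type*) [CommRing R] [CommRing K] [Algebra R K] where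
  φ : R →+* R
  φK : K →+* K
  φK_map : ∀ a, φK (algebraMap R K a) = algebraMap R K (φ a)
  frob : ∀ a, (p : R) ∣ φ a - a ^ p
  q : K
  q_mul : q * p = 1
  u : ℕ → R
  φ_u : ∀ i, φ (u i) = u i ^ p
  l : ℕ → K
  l_zero : l 0 = 1
  l_succ : ∀ t, (p : K) * l (t + 1) =
    ∑ s ∈ range (t + 1), l s * algebraMap R K (u (t + 1 - s)) ^ p ^ s

variable {p : ℕ} [hp : Fact p.Prime] {R K : Type*} [CommRing R] [CommRing K] [Algebra R K]
  {τ : Type*}

namespace Haz

variable (H : Haz p R K)



/-- Integral elements. -/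
def IsInt (x : K) : Prop := x ∈ (algebraMap R K).range

lemma φK_pow_map (i : ℕ) (a : R) :
    (H.φK ^ i) (algebraMap R K a) = algebraMap R K ((H.φ ^ i) a) := by
  induction i with
  | zero => rfl
  | succ i ih => rw [pow_succ', pow_succ', RingHom.mul_def, RingHom.mul_def, RingHom.comp_apply,
      RingHom.comp_apply, ih, H.φK_map]

lemma φ_pow_u (i j : ℕ) : (H.φ ^ i) (H.u j) = H.u j ^ p ^ i := by
  induction i with
  | zero => simp
  | succ i ih => rw [pow_succ', RingHom.mul_def, RingHom.comp_apply, ih, map_pow, H.φ_u, ← pow_mul,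
      ← pow_succ']

include H in
lemma cancel_p {x y : K} (h : (p : K) * x = p * y) : x = y := by
  have := congrArg (H.q * ·) h
  simpa [← mul_assoc, H.q_mul] using this

/-- The second form of the recursion. -/
lemma l_rec (t : ℕ) : (p : K) * H.l (t + 1) =
    ∑ i ∈ range (t + 1), algebraMap R K (H.u (i + 1)) * (H.φK ^ (i + 1)) (H.l (t - i)) := by
  induction t using Nat.strong_induction_on with
  | _ t ih =>
  refine H.cancel_p ?_
  nth_rw 1 [H.l_succ t]
  rw [sum_range_succ', sum_range_succ, mul_add, mul_add]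
  congr 1
  · rw [Finset.mul_sum, Finset.mul_sum]
    calc
      _ = ∑ s ∈ range t, ∑ i ∈ range (s + 1), algebraMap R K (H.u (i + 1)) *
            (H.φK ^ (i + 1)) (H.l (s - i)) * algebraMap R K (H.u (t - s)) ^ p ^ (s + 1) := by
        refine Finset.sum_congr rfl fun s hs => ?_
        rw [← mul_assoc, ih s (mem_range.1 hs), Finset.sum_mul]
        simp
      _ = ∑ i ∈ range t, ∑ s ∈ range (t - i), algebraMap R K (H.u (i + 1)) *
            (H.φK ^ (i + 1)) (H.l s) * algebraMap R K (H.u (t - i - s)) ^ p ^ (i + s + 1) := by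
        rw [sum_sigma', sum_sigma']
        refine sum_nbij' (fun x => ⟨x.2, x.1 - x.2⟩) (fun x => ⟨x.1 + x.2, x.1⟩) ?_ ?_ ?_ ?_ ?_
        all_goals rintro ⟨a, b⟩ h
        all_goals simp only [mem_sigma, mem_range] at h ⊢
        · omega
        · omega
        · simp only [Sigma.mk.injEq, heq_eq_eq, and_true]; omega
        · simp
        · obtain ⟨c, rfl⟩ := Nat.exists_eq_add_of_le (Nat.lt_succ_iff.1 h.2)
          rw [Nat.add_sub_cancel_left, Nat.sub_add_eq]
      _ = _ := by
        refine Finset.sum_congr rfl fun i hi => ?_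
        obtain ⟨k, hk⟩ := Nat.exists_eq_succ_of_ne_zero (Nat.sub_ne_zero_of_lt (mem_range.1 hi))
        rw [mul_left_comm, hk, ← map_natCast (H.φK ^ (i + 1)), ← map_mul, H.l_succ, map_sum,
          Finset.mul_sum]
        refine Finset.sum_congr rfl fun s _ => ?_
        rw [map_mul, map_pow, H.φK_pow_map, H.φ_pow_u, map_pow, ← pow_mul, ← pow_add]
        simp only [Nat.succ_eq_add_one]
        ring_nf
  · simp [H.l_zero]

lemma l_int (t : ℕ) : IsInt (R := R) ((p : K) ^ t * H.l t) := by
  induction t using Nat.strong_induction_on with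
  | _ t ih =>
  cases t with
  | zero => exact ⟨1, by simp [H.l_zero]⟩
  | succ t =>
    rw [pow_succ, mul_assoc, H.l_succ, Finset.mul_sum]
    refine Subring.sum_mem _ fun s hs => ?_
    obtain ⟨a, ha⟩ := ih s (mem_range.1 hs)
    refine ⟨(p : R) ^ (t - s) * a * H.u (t + 1 - s) ^ p ^ s, ?_⟩
    rw [map_mul, map_mul, map_pow, map_pow, map_natCast, ha, ← mul_assoc ((p : K) ^ (t - s)),
      ← pow_add, Nat.sub_add_cancel (Nat.lt_succ_iff.1 (mem_range.1 hs))]
    ring

/-- The logarithm. -/
def log : PowerSeries K :=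
  PowerSeries.mk fun d => if d = p ^ Nat.log p d then H.l (Nat.log p d) else 0

lemma coeff_log_pow (t : ℕ) : PowerSeries.coeff (p ^ t) H.log = H.l t := by
  simp [log, Nat.log_pow hp.out.one_lt]

lemma constantCoeff_log : H.log.constantCoeff = 0 := by
  simp [log, ← PowerSeries.coeff_zero_eq_constantCoeff_apply]

lemma coeff_one_log : PowerSeries.coeff 1 H.log = 1 := by
  simpa [H.l_zero] using H.coeff_log_pow 0

instance : Invertible (PowerSeries.coeff 1 H.log) := H.coeff_one_log ▸ invertibleOne

end Haz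

lemma coeff_pow_eq_zero {S : Type*} [CommRing S] {g : MvPowerSeries τ S}
    (hg : g.constantCoeff = 0) {e : τ →₀ ℕ} {m : ℕ} (h : e.degree < m) :
    coeff e (g ^ m) = 0 := by
  refine coeff_of_lt_order (lt_of_lt_of_le (Nat.cast_lt.2 h) (le_trans ?_ (le_order_pow m)))
  simpa using nsmul_le_nsmul_right (one_le_order_iff_constCoeff_eq_zero.2 hg) m

/-- Powers in degree `< d`, and powers of exponent `≥ 2` in degree `≤ d`, only depend on the
coefficients of degree `< d`. -/
lemma coeff_pow_congr {S : Type*} [CommRing S] {g g' : MvPowerSeries τ S} {d : ℕ}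
    (hg : g.constantCoeff = 0) (hg' : g'.constantCoeff = 0)
    (h : ∀ e, e.degree < d → coeff e g = coeff e g') (m : ℕ) :
    ∀ e, e.degree < d ∨ (2 ≤ m ∧ e.degree ≤ d) → coeff e (g ^ m) = coeff e (g' ^ m) := by
  classical
  induction m with
  | zero => simp
  | succ m ih =>
    intro e he
    rw [pow_succ, pow_succ, coeff_mul, coeff_mul]
    refine Finset.sum_congr rfl fun x hx => ?_
    have hdeg : x.1.degree + x.2.degree = e.degree := by
      rw [← map_add, Finset.HasAntidiagonal.mem_antidiagonal.1 hx]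
    by_cases h2 : x.2 = 0
    · simp [h2, hg, hg']
    by_cases h1 : x.1.degree < m
    · simp [coeff_pow_eq_zero hg h1, coeff_pow_eq_zero hg' h1]
    have hx2 : 0 < x.2.degree := Nat.pos_of_ne_zero fun h => h2 ((degree_eq_zero_iff _).1 h)
    rw [ih x.1 (by omega)]
    by_cases h3 : x.2.degree < d
    · rw [h _ h3]
    · exfalso
      rcases he with he | ⟨h4, h5⟩ <;> omega

/-- Coefficients of `expand` are determined by the coefficients of no larger degree. -/
lemma coeff_expand_congr {S : Type*} [CommRing S] {k : ℕ} (hk : k ≠ 0) {A B : MvPowerSeries τ S}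
    {e : τ →₀ ℕ} (h : ∀ e', k • e' = e → coeff e' A = coeff e' B) :
    coeff e (expand k hk A) = coeff e (expand k hk B) := by
  by_cases hd : ∀ i, k ∣ e i
  · obtain ⟨e', rfl⟩ : ∃ e', k • e' = e :=
      ⟨e.mapRange (· / k) (Nat.zero_div k), Finsupp.ext fun i => by
        simp [Nat.mul_div_cancel' (hd i)]⟩
    simp [h e' rfl]
  · obtain ⟨i, hi⟩ := not_forall.1 hd
    rw [coeff_expand_of_not_dvd _ _ _ hi, coeff_expand_of_not_dvd _ _ _ hi]

lemma dvd_of_forall_coeff {n : ℕ} {F : MvPowerSeries τ R} (h : ∀ e, (n : R) ∣ coeff e F) :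
    (n : MvPowerSeries τ R) ∣ F := by
  choose w hw using h
  let W : MvPowerSeries τ R := w
  have hW : ∀ e, coeff e W = w e := fun e => rfl
  exact ⟨W, MvPowerSeries.ext fun e => by
    rw [← map_natCast (MvPowerSeries.C (σ := τ) (R := R)), coeff_C_mul, hW, ← hw e]⟩

/-- A Frobenius lift stays one on power series. -/
lemma dvd_expand_sub_pow {ψ : R →+* R} (hψ : ∀ a, (p : R) ∣ ψ a - a ^ p)
    (G : MvPowerSeries τ R) :
    (p : MvPowerSeries τ R) ∣ expand p hp.out.ne_zero (map ψ G) - G ^ p := by
  by_cases h1 : IsUnit (p : R)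
  · obtain ⟨v, hv⟩ := h1
    exact IsUnit.dvd (by
      rw [← map_natCast (MvPowerSeries.C (σ := τ) (R := R)), ← hv]; exact (v.isUnit).map _)
  have := CharP.quotient R p h1
  set π := Ideal.Quotient.mk (Ideal.span {(p : R)}) with hπ
  have hz : ∀ x : R, π x = 0 ↔ (p : R) ∣ x := fun x => by
    rw [hπ, Ideal.Quotient.eq_zero_iff_mem, Ideal.mem_span_singleton]
  have h0 : map π (expand p hp.out.ne_zero (map ψ G) - G ^ p) = 0 := by
    rw [map_sub, map_pow, sub_eq_zero, ← map_frobenius_expand p hp.out.ne_zero, map_expand,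
      map_expand]
    congr 1
    ext e
    simp only [coeff_map, frobenius_def]
    rw [← sub_eq_zero, ← map_pow, ← map_sub, hz]
    exact hψ _
  have h : ∀ e, (p : R) ∣ coeff e (expand p hp.out.ne_zero (map ψ G) - G ^ p) := fun e =>
    (hz _).1 (by rw [← coeff_map, h0, map_zero])
  exact dvd_of_forall_coeff h

lemma pow_ne (k : ℕ) : p ^ k ≠ 0 := pow_ne_zero _ hp.out.ne_zero

namespace Haz

variable (H : Haz p R K)

lemma dvd_expand_pow_sub (k : ℕ) (G : MvPowerSeries τ R) :
    (p : MvPowerSeries τ R) ∣ expand (p ^ k) (pow_ne k) (map (H.φ ^ k) G) - G ^ p ^ k := by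
  induction k generalizing G with
  | zero => simp [RingHom.one_def]
  | succ k ih =>
    have h1 := dvd_expand_sub_pow H.frob (expand (p ^ k) (pow_ne k) (map (H.φ ^ k) G))
    have h2 := (ih G).trans (sub_dvd_pow_sub_pow (expand (p ^ k) (pow_ne k) (map (H.φ ^ k) G))
      (G ^ p ^ k) p)
    have e1 : expand (p ^ (k + 1)) (pow_ne _) (map (H.φ ^ (k + 1)) G) =
        expand p hp.out.ne_zero (map H.φ (expand (p ^ k) (pow_ne k) (map (H.φ ^ k) G))) := by
      rw [map_expand, ← expand_mul p hp.out.ne_zero (p ^ k) (pow_ne k), pow_succ' H.φ,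
        RingHom.mul_def, map_comp]
      simp [pow_succ' p]
    have := dvd_add h1 h2
    rwa [← pow_mul, ← pow_succ, sub_add_sub_cancel, ← e1] at this

/-- The functional equation operator. -/
def E (Z : MvPowerSeries τ K) (e : τ →₀ ℕ) : K :=
  coeff e Z - ∑ i ∈ range e.degree, H.q * algebraMap R K (H.u (i + 1)) *
    coeff e (expand (p ^ (i + 1)) (pow_ne _) (map (H.φK ^ (i + 1)) Z))

lemma E_add (Z Z' : MvPowerSeries τ K) (e : τ →₀ ℕ) : H.E (Z + Z') e = H.E Z e + H.E Z' e := by
  simp only [E, map_add, mul_add, sum_add_distrib]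
  ring

lemma hasSubst_of {g : MvPowerSeries τ K} (hg : g.constantCoeff = 0) : PowerSeries.HasSubst g :=
  PowerSeries.HasSubst.of_constantCoeff_zero hg

lemma coeff_subst_log {g : MvPowerSeries τ K} (hg : g.constantCoeff = 0) {e : τ →₀ ℕ} {N : ℕ}
    (hN : e.degree < N) :
    coeff e (PowerSeries.subst g H.log) = ∑ t ∈ range N, H.l t * coeff e (g ^ p ^ t) := by
  classical
  rw [PowerSeries.coeff_subst (hasSubst_of hg),
    finsum_eq_sum_of_support_subset _ (s := (range N).image (p ^ ·))]
  · rw [sum_image ((Nat.pow_right_injective hp.out.two_le).injOn)]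
    simp [H.coeff_log_pow, smul_eq_mul]
  · intro d hd
    have hd' : d = p ^ Nat.log p d := by
      by_contra hne
      exact hd (by simp [log, hne])
    have hle : d ≤ e.degree := by
      by_contra hlt
      exact hd (by simp [coeff_pow_eq_zero hg (not_le.1 hlt)])
    simp only [coe_image, Set.mem_image, Finset.mem_coe, mem_range]
    exact ⟨_, ((Nat.log_le_self p d).trans hle).trans_lt hN, hd'.symm⟩

lemma coeff_expand_subst_log {g : MvPowerSeries τ K} (hg : g.constantCoeff = 0) (e : τ →₀ ℕ)
    (i : ℕ) {N : ℕ} (hN : ∀ e', p ^ (i + 1) • e' = e → e'.degree < p ^ N) :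
    coeff e (expand (p ^ (i + 1)) (pow_ne _) (map (H.φK ^ (i + 1)) (PowerSeries.subst g H.log))) =
      ∑ s ∈ range N, (H.φK ^ (i + 1)) (H.l s) *
        coeff e (expand (p ^ (i + 1)) (pow_ne _) (map (H.φK ^ (i + 1)) g) ^ p ^ s) := by
  rw [coeff_expand_congr (pow_ne _)
    (B := ∑ s ∈ range N, C ((H.φK ^ (i + 1)) (H.l s)) * (map (H.φK ^ (i + 1)) g) ^ p ^ s)]
  · simp [map_sum, coeff_C_mul, expand_C, map_mul, map_pow]
  · intro e' he'
    rw [coeff_map, H.coeff_subst_log hg (Nat.lt_succ_self _), map_sum, map_sum]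
    simp only [map_mul, ← coeff_map, map_pow, coeff_C_mul]
    rw [sum_subset (s₁ := range (e'.degree + 1)) (s₂ := range (e'.degree + 1 + N)) (by simp)
      (fun s _ hs => by
        rw [coeff_pow_eq_zero (by simp [constantCoeff_map, hg])
          ((Nat.lt_succ_self _).trans_le ((not_lt.1 (mt mem_range.2 hs)).trans
            (Nat.lt_pow_self hp.out.one_lt).le)), mul_zero])]
    refine (sum_subset (by simp) fun s _ hs => ?_).symm
    rw [coeff_pow_eq_zero (by simp [constantCoeff_map, hg])
      ((hN e' he').trans_le (Nat.pow_le_pow_right hp.out.pos (not_lt.1 (mt mem_range.2 hs)))),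
      mul_zero]

/-- Values of the logarithm at integral series satisfy the functional equation. -/
lemma E_subst_log (G : MvPowerSeries τ R) (hG : G.constantCoeff = 0) (e : τ →₀ ℕ) :
    IsInt (R := R) (H.E (PowerSeries.subst (map (algebraMap R K) G) H.log) e) := by
  set g := map (algebraMap R K) G with hgdef
  have hg : g.constantCoeff = 0 := by simp [hgdef, constantCoeff_map, hG]
  set D := e.degree with hD
  have hA : coeff e (PowerSeries.subst g H.log) = coeff e g + ∑ i ∈ range D, ∑ s ∈ range (D - i),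
      H.q * algebraMap R K (H.u (i + 1)) * ((H.φK ^ (i + 1)) (H.l s) *
        coeff e ((g ^ p ^ (i + 1)) ^ p ^ s)) := by
    rw [H.coeff_subst_log hg (Nat.lt_succ_self _), ← hD, sum_range_succ', H.l_zero]
    simp only [pow_zero, pow_one, one_mul]
    rw [add_comm]
    congr 1
    calc
      _ = ∑ t ∈ range D, ∑ i ∈ range (t + 1), H.q * algebraMap R K (H.u (i + 1)) *
            ((H.φK ^ (i + 1)) (H.l (t - i)) * coeff e (g ^ p ^ (t + 1))) := by
        refine Finset.sum_congr rfl fun t _ => ?_
        rw [← one_mul (H.l (t + 1)), ← H.q_mul, mul_assoc H.q, H.l_rec, Finset.mul_sum, Finset.sum_mul]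
        exact Finset.sum_congr rfl fun i _ => by ring
      _ = _ := by
        rw [sum_sigma', sum_sigma']
        refine sum_nbij' (fun x => ⟨x.2, x.1 - x.2⟩) (fun x => ⟨x.1 + x.2, x.1⟩) ?_ ?_ ?_ ?_ ?_
        all_goals rintro ⟨a, b⟩ h
        all_goals simp only [mem_sigma, mem_range] at h ⊢
        · omega
        · omega
        · simp only [Sigma.mk.injEq, heq_eq_eq, and_true]; omega
        · simp
        · rw [← pow_mul, ← pow_add]; congr 5; omega
  have hB : ∀ i ∈ range D,
      coeff e (expand (p ^ (i + 1)) (pow_ne _) (map (H.φK ^ (i + 1))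
        (PowerSeries.subst g H.log))) =
      ∑ s ∈ range (D - i), (H.φK ^ (i + 1)) (H.l s) *
        coeff e (expand (p ^ (i + 1)) (pow_ne _) (map (H.φK ^ (i + 1)) g) ^ p ^ s) := by
    intro i hi
    refine H.coeff_expand_subst_log hg e i fun e' he' => ?_
    have h1 : p ^ (i + 1) * e'.degree = D := by
      rw [hD, ← he', map_nsmul, smul_eq_mul]
    have h2 : D < p ^ (i + 1) * p ^ (D - i) := by
      rw [← pow_add]
      exact (Nat.lt_pow_self hp.out.one_lt).trans_le
        (Nat.pow_le_pow_right hp.out.pos (by have := mem_range.1 hi; omega))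
    exact Nat.lt_of_mul_lt_mul_left (h1.trans_lt h2)
  rw [E, ← hD, hA, add_sub_assoc, ← sum_sub_distrib]
  refine Subring.add_mem _ ⟨coeff e G, by simp [hgdef]⟩ (Subring.sum_mem _ fun i hi => ?_)
  rw [hB i hi, Finset.mul_sum, ← sum_sub_distrib]
  refine Subring.sum_mem _ fun s _ => ?_
  obtain ⟨w, hw⟩ := dvd_sub_pow_of_dvd_sub (H.dvd_expand_pow_sub (i + 1) G) s
  obtain ⟨a, ha⟩ := H.l_int s
  have hmap : (map (algebraMap R K)) (expand (p ^ (i + 1)) (pow_ne _) (map (H.φ ^ (i + 1)) G)) =
      expand (p ^ (i + 1)) (pow_ne _) (map (H.φK ^ (i + 1)) g) := by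
    rw [map_expand]
    congr 1
    ext x
    rw [hgdef, coeff_map, coeff_map, coeff_map, coeff_map, H.φK_pow_map]
  refine ⟨-(H.u (i + 1) * ((H.φ ^ (i + 1)) a * coeff e w)), ?_⟩
  have hw' := congrArg (fun x => coeff e (map (algebraMap R K) x)) hw
  simp only [map_sub, map_pow, hmap, map_mul, map_natCast, ← hgdef] at hw'
  rw [← map_natCast (MvPowerSeries.C (σ := τ) (R := K)),
    ← map_pow (MvPowerSeries.C (σ := τ) (R := K)), coeff_C_mul, coeff_map] at hw'
  have ha' := congrArg (H.φK ^ (i + 1)) ha
  rw [H.φK_pow_map, map_mul, map_pow, map_natCast] at ha'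
  rw [map_neg, map_mul, map_mul, ha', ← mul_sub, ← mul_sub, ← neg_sub, hw']
  linear_combination (algebraMap R K (H.u (i + 1)) * (H.φK ^ (i + 1)) (H.l s) *
    algebraMap R K (coeff e w) * (p : K) ^ s) * H.q_mul

/-- The functional equation lemma. -/
theorem isInt_of_subst_log_eq {g Z : MvPowerSeries τ K} (hg : g.constantCoeff = 0)
    (hZ : PowerSeries.subst g H.log = Z) (hE : ∀ e, IsInt (R := R) (H.E Z e)) :
    ∃ G : MvPowerSeries τ R, G.constantCoeff = 0 ∧ map (algebraMap R K) G = g := by
  classical
  have key : ∀ d (e : τ →₀ ℕ), e.degree = d → IsInt (R := R) (coeff e g) := by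
    intro d
    induction d using Nat.strong_induction_on with
    | _ d ih =>
    intro e he
    rcases Nat.eq_zero_or_pos d with rfl | hd
    · rw [(degree_eq_zero_iff e).1 he]
      exact ⟨0, by simp [hg]⟩
    let G : MvPowerSeries τ R := fun x => if h : 0 < x.degree ∧ x.degree < d then
      Classical.choose (ih _ h.2 x rfl) else 0
    have hG : ∀ x : τ →₀ ℕ, 0 < x.degree ∧ x.degree < d →
        coeff x (map (algebraMap R K) G) = coeff x g := fun x h => by
      rw [coeff_map, coeff_apply G]
      simpa [G, h] using Classical.choose_spec (ih _ h.2 x rfl)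
    have hG0 : G.constantCoeff = 0 := by
      rw [← coeff_zero_eq_constantCoeff_apply, coeff_apply]; simp [G]
    have hG0' : (map (algebraMap R K) G).constantCoeff = 0 := by simp [constantCoeff_map, hG0]
    have hagree : ∀ x : τ →₀ ℕ, x.degree < d → coeff x g = coeff x (map (algebraMap R K) G) := by
      intro x hx
      rcases Nat.eq_zero_or_pos x.degree with h | h
      · rw [(degree_eq_zero_iff x).1 h]; simp [hg, hG0]
      · exact (hG x ⟨h, hx⟩).symm
    have hGe : coeff e (map (algebraMap R K) G) = 0 := by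
      rw [coeff_map, coeff_apply G]; simp [G, he]
    have hpow : ∀ x : τ →₀ ℕ, x.degree ≤ d → coeff x Z =
        coeff x (PowerSeries.subst (map (algebraMap R K) G) H.log) +
          (coeff x g - coeff x (map (algebraMap R K) G)) := by
      intro x hx
      rw [← hZ, H.coeff_subst_log hg (Nat.lt_succ_self _),
        H.coeff_subst_log hG0' (Nat.lt_succ_self _), sum_range_succ', sum_range_succ']
      have : ∀ t, coeff x (g ^ p ^ (t + 1)) =
          coeff x (map (algebraMap R K) G ^ p ^ (t + 1)) := fun t =>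
        coeff_pow_congr hg hG0' hagree _ x
          (Or.inr ⟨hp.out.two_le.trans (Nat.le_self_pow (by omega) p), hx⟩)
      simp [this, H.l_zero]
    have : H.E Z e = H.E (PowerSeries.subst (map (algebraMap R K) G) H.log) e + coeff e g := by
      rw [E, E, hpow e he.le, hGe]
      rw [Finset.sum_congr rfl fun i _ => congrArg (H.q * algebraMap R K (H.u (i + 1)) * ·)
        (coeff_expand_congr (pow_ne (i + 1)) (A := map (H.φK ^ (i + 1)) Z)
          (B := map (H.φK ^ (i + 1)) (PowerSeries.subst (map (algebraMap R K) G) H.log))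
          fun e' he' => ?_)]
      · ring
      have h1 : p ^ (i + 1) * e'.degree = d := by rw [← he, ← he', map_nsmul, smul_eq_mul]
      have h2 : e'.degree < d := by
        rcases Nat.eq_zero_or_pos e'.degree with h | h
        · omega
        · rw [← h1]
          exact (Nat.lt_mul_iff_one_lt_left h).2 (Nat.one_lt_pow (by omega) hp.out.one_lt)
      simp [hpow e' h2.le, hagree e' h2]
    have hg' : coeff e g = H.E Z e -
        H.E (PowerSeries.subst (map (algebraMap R K) G) H.log) e := by rw [this]; ring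
    rw [hg']
    exact Subring.sub_mem _ (hE e) (H.E_subst_log G hG0 e)
  choose c hc using fun e => key _ e rfl
  let W : MvPowerSeries τ R := fun e => if e = 0 then 0 else c e
  have hW : ∀ e, coeff e W = if e = 0 then 0 else c e := fun e => rfl
  refine ⟨W, ?_, ?_⟩
  · rw [← coeff_zero_eq_constantCoeff_apply, hW]; simp
  · ext e
    rw [coeff_map, hW]
    split_ifs with h
    · simp [h, hg]
    · exact hc e

/-- The inverse image of `p X` under the logarithm is divisible by `p`. -/
theorem dvd_of_subst_log_eq {g : MvPowerSeries τ K} {A : MvPowerSeries τ R}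
    (hg : g.constantCoeff = 0)
    (hZ : PowerSeries.subst g H.log = map (algebraMap R K) ((p : MvPowerSeries τ R) * A)) :
    ∃ G : MvPowerSeries τ R, map (algebraMap R K) ((p : MvPowerSeries τ R) * G) = g := by
  classical
  have key : ∀ d (e : τ →₀ ℕ), e.degree = d → ∃ a : R, algebraMap R K ((p : R) * a) = coeff e g := by
    intro d
    induction d using Nat.strong_induction_on with
    | _ d ih =>
    intro e he
    rcases Nat.eq_zero_or_pos d with rfl | hd
    · rw [(degree_eq_zero_iff e).1 he]
      exact ⟨0, by simp [hg]⟩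
    let G : MvPowerSeries τ R := fun x => if h : 0 < x.degree ∧ x.degree < d then
      Classical.choose (ih _ h.2 x rfl) else 0
    set g' := map (algebraMap R K) ((p : MvPowerSeries τ R) * G) with hg'
    have hG : ∀ x : τ →₀ ℕ, coeff x g' =
        if 0 < x.degree ∧ x.degree < d then coeff x g else 0 := by
      intro x
      rw [hg', ← map_natCast (MvPowerSeries.C (σ := τ) (R := R)), coeff_map, coeff_C_mul,
        coeff_apply G]
      split_ifs with h
      · simpa [G, h] using Classical.choose_spec (ih _ h.2 x rfl)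
      · simp [G, h]
    have hg0 : g'.constantCoeff = 0 := by
      rw [← coeff_zero_eq_constantCoeff_apply, hG]; simp
    have hagree : ∀ x : τ →₀ ℕ, x.degree < d → coeff x g = coeff x g' := by
      intro x hx
      rw [hG]
      split_ifs with h
      · rfl
      · rw [(degree_eq_zero_iff x).1 (by omega)]; simpa using hg
    have hsum := congrArg (coeff e) hZ
    rw [H.coeff_subst_log hg (Nat.lt_succ_self _), sum_range_succ', H.l_zero, he] at hsum
    simp only [pow_zero, pow_one, one_mul] at hsum
    choose a ha using fun t => H.l_int (t + 1)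
    have hterm : ∀ t, ∃ b : R,
        algebraMap R K ((p : R) * b) = H.l (t + 1) * coeff e (g ^ p ^ (t + 1)) := by
      intro t
      have ht : t + 1 + 1 ≤ p ^ (t + 1) := Nat.lt_pow_self hp.out.one_lt
      refine ⟨(p : R) ^ (p ^ (t + 1) - (t + 1) - 1) * a t * coeff e (G ^ p ^ (t + 1)), ?_⟩
      rw [coeff_pow_congr hg hg0 hagree _ e
        (Or.inr ⟨hp.out.two_le.trans (Nat.le_self_pow (by omega) p), he.le⟩), hg', ← map_pow,
        mul_pow, ← map_natCast (MvPowerSeries.C (σ := τ) (R := R)), ← map_pow, coeff_map,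
        coeff_C_mul]
      simp only [map_mul, map_pow, map_natCast, ha t]
      have hexp : (p : K) ^ p ^ (t + 1) =
          p * (p : K) ^ (p ^ (t + 1) - (t + 1) - 1) * (p : K) ^ (t + 1) := by
        rw [← pow_succ', ← pow_add]; congr 1; omega
      rw [hexp]
      ring
    choose b hb using hterm
    refine ⟨coeff e A - ∑ t ∈ range d, b t, ?_⟩
    rw [mul_sub, map_sub, Finset.mul_sum, map_sum]
    rw [sum_congr rfl fun t _ => hb t, sub_eq_iff_eq_add', hsum,
      ← map_natCast (MvPowerSeries.C (σ := τ) (R := R)), coeff_map, coeff_C_mul]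
  choose c hc using fun e => key _ e rfl
  let W : MvPowerSeries τ R := c
  have hW : ∀ e, coeff e W = c e := fun e => rfl
  refine ⟨W, MvPowerSeries.ext fun e => ?_⟩
  rw [← map_natCast (MvPowerSeries.C (σ := τ) (R := R)), coeff_map, coeff_C_mul, hW, hc e]

end Haz

end Vale.Agent.P217.FG
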