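import Vale.Agent.P217.Defs
import Vale.Agent.P217.FG.Hazewinkel

/-!
# P217: the formal group law with Hazewinkel's logarithm

Existence, uniqueness, commutativity and the congruence for multiplication by `p`.
-/

noncomputable section

namespace Vale.Agent.P217.FG

open MvPowerSeries Finsupp Finset

/-- `∑^F_{1 ≤ i ≤ k} u i · x ^ (p ^ i)`. -/
def tail (p : ℕ) {R : Type*} [CommRing R] (F : FormalGroup R) (u : ℕ → R) : ℕ → PowerSeries R
  | 0 => 0
  | k + 1 => F.toPowerSeries.subst
      ![PowerSeries.C (u (k + 1)) * PowerSeries.X ^ p ^ (k + 1), tail p F u k]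

variable {p : ℕ} [hp : Fact p.Prime] {R : Type} {K : Type*} [CommRing R] [CommRing K]
  [Algebra R K] {τ σ : Type*}

namespace Haz

variable (H : Haz p R K)

/-- The inverse of the logarithm. -/
def logInv : PowerSeries K := H.log.substInv

lemma subst_log_logInv {Z : MvPowerSeries τ K} (hZ : Z.constantCoeff = 0) :
    (PowerSeries.subst Z H.logInv).constantCoeff = 0 ∧
      PowerSeries.subst (PowerSeries.subst Z H.logInv) H.log = Z := by
  refine ⟨PowerSeries.constantCoeff_subst_eq_zero hZ _ (PowerSeries.constantCoeff_substInv _), ?_⟩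
  rw [logInv, ← PowerSeries.subst_comp_subst_apply (PowerSeries.HasSubst.substInv _) (hasSubst_of hZ),
    PowerSeries.subst_substInv_right _ H.constantCoeff_log,
    PowerSeries.subst_X (hasSubst_of hZ)]

lemma log_injective {g g' : MvPowerSeries τ K} (hg : g.constantCoeff = 0)
    (hg' : g'.constantCoeff = 0)
    (h : PowerSeries.subst g H.log = PowerSeries.subst g' H.log) : g = g' := by
  have hl : PowerSeries.HasSubst H.log :=
    PowerSeries.HasSubst.of_constantCoeff_zero' H.constantCoeff_log
  have key : ∀ a : MvPowerSeries τ K, a.constantCoeff = 0 →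
      PowerSeries.subst (PowerSeries.subst a H.log) H.logInv = a := fun a ha => by
    rw [← PowerSeries.subst_comp_subst_apply hl (hasSubst_of ha), logInv,
      PowerSeries.subst_substInv_left _ H.constantCoeff_log, PowerSeries.subst_X (hasSubst_of ha)]
  rw [← key g hg, h, key g' hg']

lemma constantCoeff_subst_log {g : MvPowerSeries τ K} (hg : g.constantCoeff = 0) :
    (PowerSeries.subst g H.log).constantCoeff = 0 :=
  PowerSeries.constantCoeff_subst_eq_zero hg _ H.constantCoeff_log

lemma coeff_subst_log_single {g : MvPowerSeries τ K} (hg : g.constantCoeff = 0) (j : τ) :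
    coeff (Finsupp.single j 1) (PowerSeries.subst g H.log) = coeff (Finsupp.single j 1) g := by
  rw [H.coeff_subst_log hg (N := 2) (by simp), sum_range_succ, sum_range_one, H.l_zero,
    coeff_pow_eq_zero hg (m := p ^ 1) (by simpa using hp.out.one_lt)]
  simp

lemma subst_log_subst {a : σ → MvPowerSeries τ K} (ha : MvPowerSeries.HasSubst a)
    {g : MvPowerSeries σ K} (hg : g.constantCoeff = 0) :
    MvPowerSeries.subst a (PowerSeries.subst g H.log) =
      PowerSeries.subst (MvPowerSeries.subst a g) H.log := by
  rw [PowerSeries.subst, MvPowerSeries.subst_comp_subst_apply (hasSubst_of hg).const ha]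
  rfl

variable [FaithfulSMul R K]

lemma map_injective : Function.Injective (map (σ := τ) (algebraMap R K)) := fun a b h => by
  ext e
  apply FaithfulSMul.algebraMap_injective R K
  rw [← coeff_map, ← coeff_map, h]

/-- `F` has the logarithm of `H`. -/
def IsLog (F : FormalGroup R) : Prop :=
  PowerSeries.subst (F.map (algebraMap R K)).toPowerSeries H.log =
    PowerSeries.subst (MvPowerSeries.X 0 : MvPowerSeries (Fin 2) K) H.log +
      PowerSeries.subst (MvPowerSeries.X 1 : MvPowerSeries (Fin 2) K) H.log

omit [FaithfulSMul R K] in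
lemma log_subst_two {P : MvPowerSeries (Fin 2) K} (hP0 : P.constantCoeff = 0)
    (hP : PowerSeries.subst P H.log = PowerSeries.subst (MvPowerSeries.X 0) H.log +
      PowerSeries.subst (MvPowerSeries.X 1) H.log)
    {a b : MvPowerSeries τ K} (ha : a.constantCoeff = 0) (hb : b.constantCoeff = 0) :
    PowerSeries.subst (MvPowerSeries.subst ![a, b] P) H.log =
      PowerSeries.subst a H.log + PowerSeries.subst b H.log := by
  have hab : MvPowerSeries.HasSubst ![a, b] :=
    hasSubst_of_constantCoeff_zero fun i => by fin_cases i <;> simpa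
  rw [← H.subst_log_subst hab hP0, hP, MvPowerSeries.subst_add hab,
    H.subst_log_subst hab (by simp), H.subst_log_subst hab (by simp), subst_X hab, subst_X hab]
  simp

omit [FaithfulSMul R K] in
lemma IsLog.subst_two {F : FormalGroup R} (hF : H.IsLog F) {a b : MvPowerSeries τ R}
    (ha : a.constantCoeff = 0) (hb : b.constantCoeff = 0) :
    PowerSeries.subst (map (algebraMap R K) (F.toPowerSeries.subst ![a, b])) H.log =
      PowerSeries.subst (map (algebraMap R K) a) H.log +
        PowerSeries.subst (map (algebraMap R K) b) H.log := by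
  have hab : MvPowerSeries.HasSubst ![a, b] :=
    hasSubst_of_constantCoeff_zero fun i => by fin_cases i <;> simpa
  rw [map_subst hab, show (fun i => map (algebraMap R K) (![a, b] i)) =
    ![map (algebraMap R K) a, map (algebraMap R K) b] by funext i; fin_cases i <;> rfl]
  exact H.log_subst_two (F.map (algebraMap R K)).zero_constantCoeff hF
    (by simp [constantCoeff_map, ha]) (by simp [constantCoeff_map, hb])

omit [FaithfulSMul R K] in
lemma constantCoeff_two (F : FormalGroup R) {a b : MvPowerSeries τ R} (ha : a.constantCoeff = 0)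
    (hb : b.constantCoeff = 0) : (F.toPowerSeries.subst ![a, b]).constantCoeff = 0 :=
  constantCoeff_subst_eq_zero
    (hasSubst_of_constantCoeff_zero fun i => by fin_cases i <;> simpa)
    (fun i => by fin_cases i <;> simpa) F.zero_constantCoeff

lemma eq_of_log_eq {a b : MvPowerSeries τ R} (ha : a.constantCoeff = 0) (hb : b.constantCoeff = 0)
    (h : PowerSeries.subst (map (algebraMap R K) a) H.log =
      PowerSeries.subst (map (algebraMap R K) b) H.log) : a = b :=
  map_injective (H.log_injective (by simp [constantCoeff_map, ha])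
    (by simp [constantCoeff_map, hb]) h)

/-- Existence of the formal group law with logarithm `H.log`, with commutativity. -/
theorem exists_isLog : ∃ F : FormalGroup R, F.IsComm ∧ H.IsLog F := by
  set Z : MvPowerSeries (Fin 2) K := PowerSeries.subst (MvPowerSeries.X 0) H.log +
    PowerSeries.subst (MvPowerSeries.X 1) H.log with hZ
  have hX : ∀ i : Fin 2, (MvPowerSeries.X i : MvPowerSeries (Fin 2) K).constantCoeff = 0 := by simp
  have hZ0 : Z.constantCoeff = 0 := by
    simp [hZ, H.constantCoeff_subst_log (hX 0), H.constantCoeff_subst_log (hX 1)]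
  obtain ⟨hg0, hgl⟩ := H.subst_log_logInv hZ0
  obtain ⟨G, hG0, hG⟩ := H.isInt_of_subst_log_eq hg0 hgl fun e => by
    rw [hZ, H.E_add]
    refine Subring.add_mem _ ?_ ?_
    · rw [← MvPowerSeries.map_X (algebraMap R K)]
      exact H.E_subst_log _ (by simp) e
    · rw [← MvPowerSeries.map_X (algebraMap R K)]
      exact H.E_subst_log _ (by simp) e
  have hlog : PowerSeries.subst (map (algebraMap R K) G) H.log = Z := by rw [hG, hgl]
  have hlin : ∀ j : Fin 2, coeff (Finsupp.single j 1) G = 1 := by
    intro j
    apply FaithfulSMul.algebraMap_injective R K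
    rw [← coeff_map, hG, ← H.coeff_subst_log_single hg0 j, hgl, hZ, map_add,
      H.coeff_subst_log_single (hX 0) j, H.coeff_subst_log_single (hX 1) j, map_one]
    fin_cases j <;> simp [coeff_index_single_X]
  have h2 : ∀ {τ : Type} {a b : MvPowerSeries τ R}, a.constantCoeff = 0 → b.constantCoeff = 0 →
      PowerSeries.subst (map (algebraMap R K) (subst ![a, b] G)) H.log =
        PowerSeries.subst (map (algebraMap R K) a) H.log +
          PowerSeries.subst (map (algebraMap R K) b) H.log := by
    intro τ a b ha hb
    have hab : MvPowerSeries.HasSubst ![a, b] :=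
      hasSubst_of_constantCoeff_zero fun i => by fin_cases i <;> simpa
    rw [map_subst hab, show (fun i => map (algebraMap R K) (![a, b] i)) =
      ![map (algebraMap R K) a, map (algebraMap R K) b] by funext i; fin_cases i <;> rfl]
    exact H.log_subst_two (by simp [constantCoeff_map, hG0]) hlog
      (by simp [constantCoeff_map, ha]) (by simp [constantCoeff_map, hb])
  have hc : ∀ {τ : Type} {a b : MvPowerSeries τ R}, a.constantCoeff = 0 → b.constantCoeff = 0 →
      (subst ![a, b] G).constantCoeff = 0 := fun ha hb =>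
    constantCoeff_subst_eq_zero
      (hasSubst_of_constantCoeff_zero fun i => by fin_cases i <;> simpa)
      (fun i => by fin_cases i <;> simpa) hG0
  have hx : ∀ {m : ℕ} (i : Fin m), (MvPowerSeries.X i : MvPowerSeries (Fin m) R).constantCoeff = 0 :=
    fun i => by simp
  let F : FormalGroup R :=
    { toPowerSeries := G
      zero_constantCoeff := hG0
      lin_coeff_X := hlin 0
      lin_coeff_Y := hlin 1
      assoc := by
        refine H.eq_of_log_eq (hc (hc (hx 0) (hx 1)) (hx 2)) (hc (hx 0) (hc (hx 1) (hx 2))) ?_
        rw [h2 (hc (hx 0) (hx 1)) (hx 2), h2 (hx 0) (hx 1), h2 (hx 0) (hc (hx 1) (hx 2)),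
          h2 (hx 1) (hx 2), add_assoc] }
  refine ⟨F, ⟨?_⟩, hlog⟩
  refine H.eq_of_log_eq hG0 (hc (hx 1) (hx 0)) ?_
  rw [hlog, h2 (hx 1) (hx 0), hZ, map_X, map_X, add_comm]

/-- There is only one formal group law with logarithm `H.log`. -/
theorem IsLog.unique {F F' : FormalGroup R} (hF : H.IsLog F) (hF' : H.IsLog F') : F = F' := by
  refine FormalGroup.ext (H.eq_of_log_eq F.zero_constantCoeff F'.zero_constantCoeff ?_)
  exact (hF : _ = _).trans (hF' : _ = _).symm

omit [FaithfulSMul R K] hp in
lemma constantCoeff_nsmulSeries (F : FormalGroup R) (m : ℕ) :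
    (nsmulSeries F m).constantCoeff = 0 := by
  induction m with
  | zero => simp [nsmulSeries]
  | succ m ih => exact constantCoeff_two F PowerSeries.constantCoeff_X ih

omit [FaithfulSMul R K] in
lemma constantCoeff_tail (F : FormalGroup R) (u : ℕ → R) (k : ℕ) :
    (tail p F u k).constantCoeff = 0 := by
  induction k with
  | zero => simp [tail]
  | succ k ih =>
    refine constantCoeff_two F (τ := Unit) ?_ ih
    change PowerSeries.constantCoeff (PowerSeries.C (u (k + 1)) * PowerSeries.X ^ p ^ (k + 1)) = 0
    simp [zero_pow (pow_ne (p := p) (k + 1))]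

omit [FaithfulSMul R K] in
lemma log_nsmul {F : FormalGroup R} (hF : H.IsLog F) (m : ℕ) :
    PowerSeries.subst (PowerSeries.map (algebraMap R K) (nsmulSeries F m)) H.log =
      (m : PowerSeries K) * H.log := by
  induction m with
  | zero => simp [nsmulSeries, PowerSeries.subst_zero_of_constantCoeff_zero H.constantCoeff_log]
  | succ m ih =>
    refine ((IsLog.subst_two H hF (τ := Unit) PowerSeries.constantCoeff_X
      (constantCoeff_nsmulSeries F m))).trans ?_
    change PowerSeries.subst (PowerSeries.map (algebraMap R K) PowerSeries.X) H.log +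
      PowerSeries.subst (PowerSeries.map (algebraMap R K) (nsmulSeries F m)) H.log = _
    rw [ih, PowerSeries.map_X, PowerSeries.X_subst]
    push_cast
    ring

omit [FaithfulSMul R K] in
lemma coeff_log_monomial (c : K) (j e : ℕ) :
    PowerSeries.coeff e (PowerSeries.subst (PowerSeries.C c * PowerSeries.X ^ p ^ j) H.log) =
      ∑ t ∈ range (e + 1), if e = p ^ (j + t) then H.l t * c ^ p ^ t else 0 := by
  have h0 : (PowerSeries.C c * PowerSeries.X ^ p ^ j : PowerSeries K).constantCoeff = 0 := by
    simp [zero_pow (pow_ne (p := p) j)]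
  refine (H.coeff_subst_log (τ := Unit) h0 (N := e + 1) (by simp)).trans
    (Finset.sum_congr rfl fun t _ => ?_)
  change H.l t * PowerSeries.coeff e ((PowerSeries.C c * PowerSeries.X ^ p ^ j) ^ p ^ t) = _
  rw [mul_pow, ← map_pow, PowerSeries.coeff_C_mul, ← pow_mul, ← pow_add,
    PowerSeries.coeff_X_pow, mul_ite, mul_one, mul_zero, mul_ite, mul_zero]

omit [FaithfulSMul R K] in
/-- Hazewinkel's identity `p f(x) = p x + ∑ f(u i x ^ (p ^ i))`. -/
lemma p_mul_log {n : ℕ} (hu : ∀ i, n < i → H.u i = 0) :
    (p : PowerSeries K) * H.log = (p : PowerSeries K) * PowerSeries.X +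
      ∑ i ∈ range n, PowerSeries.subst
        (PowerSeries.C (algebraMap R K (H.u (i + 1))) * PowerSeries.X ^ p ^ (i + 1)) H.log := by
  ext e
  rw [map_add, map_sum, ← map_natCast (PowerSeries.C (R := K)), PowerSeries.coeff_C_mul,
    PowerSeries.coeff_C_mul]
  simp only [H.coeff_log_monomial]
  by_cases he : e = p ^ Nat.log p e
  · obtain ⟨s, rfl⟩ : ∃ s, e = p ^ s := ⟨_, he⟩
    rw [H.coeff_log_pow, PowerSeries.coeff_X]
    rcases s with _ | s
    · rw [pow_zero, if_pos rfl, H.l_zero]
      simp only [mul_one, left_eq_add]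
      refine Finset.sum_eq_zero fun i _ => Finset.sum_eq_zero fun t _ => if_neg fun h => ?_
      exact absurd h (Nat.one_lt_pow (by omega) hp.out.one_lt).ne
    rw [if_neg (Nat.one_lt_pow (by omega) hp.out.one_lt).ne', mul_zero, zero_add, H.l_succ,
      ← Finset.sum_range_reflect]
    have hinj : ∀ {a b : ℕ}, p ^ a = p ^ b ↔ a = b := fun {a b} =>
      (Nat.pow_right_injective hp.out.two_le).eq_iff
    simp only [hinj]
    calc
      _ = ∑ i ∈ range (s + 1), H.l (s - i) * algebraMap R K (H.u (i + 1)) ^ p ^ (s - i) := by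
        refine Finset.sum_congr rfl fun i hi => ?_
        have := mem_range.1 hi
        congr 5 <;> omega
      _ = ∑ i ∈ range (max n (s + 1)),
          if i ≤ s then H.l (s - i) * algebraMap R K (H.u (i + 1)) ^ p ^ (s - i) else 0 := by
        rw [← Finset.sum_subset (s₁ := range (s + 1)) (s₂ := range (max n (s + 1)))
          (by simp) fun i _ hi => if_neg (by simpa [Nat.lt_succ_iff] using hi)]
        exact Finset.sum_congr rfl fun i hi =>
          (if_pos (Nat.lt_succ_iff.1 (mem_range.1 hi))).symm
      _ = ∑ i ∈ range n,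
          if i ≤ s then H.l (s - i) * algebraMap R K (H.u (i + 1)) ^ p ^ (s - i) else 0 := by
        refine (Finset.sum_subset (by simp) fun i _ hi => ?_).symm
        have := not_lt.1 (mt mem_range.2 hi)
        simp [hu (i + 1) (by omega), zero_pow (pow_ne (p := p) (s - i))]
      _ = _ := by
        refine Finset.sum_congr rfl fun i _ => ?_
        by_cases hi : i ≤ s
        · rw [if_pos hi, Finset.sum_eq_single (s - i) (fun t _ ht => if_neg (by omega))
            (fun ht => absurd (mem_range.2 ((Nat.lt_pow_self hp.out.one_lt).trans_le'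
              (show s - i ≤ s + 1 by omega) |>.trans (Nat.lt_succ_self _))) ht),
            if_pos (by omega)]
        · rw [if_neg hi, Finset.sum_eq_zero fun t _ => if_neg (by omega)]
  · have h1 : PowerSeries.coeff e H.log = 0 := by simp [log, he]
    have hne : ∀ j, e ≠ p ^ j := fun j hj => he (by rw [hj, Nat.log_pow hp.out.one_lt])
    rw [h1, PowerSeries.coeff_X, if_neg (by simpa using hne 0)]
    simp [hne]

omit [FaithfulSMul R K] in
lemma log_tail {F : FormalGroup R} (hF : H.IsLog F) (k : ℕ) :
    PowerSeries.subst (PowerSeries.map (algebraMap R K) (tail p F H.u k)) H.log =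
      ∑ i ∈ range k, PowerSeries.subst
        (PowerSeries.C (algebraMap R K (H.u (i + 1))) * PowerSeries.X ^ p ^ (i + 1)) H.log := by
  induction k with
  | zero => simp [tail, PowerSeries.subst_zero_of_constantCoeff_zero H.constantCoeff_log]
  | succ k ih =>
    have h0 : (PowerSeries.C (H.u (k + 1)) * PowerSeries.X ^ p ^ (k + 1)).constantCoeff = 0 := by
      simp [zero_pow (pow_ne (p := p) (k + 1))]
    refine (IsLog.subst_two H hF (τ := Unit) h0 (constantCoeff_tail F H.u k)).trans ?_
    change PowerSeries.subst (PowerSeries.map (algebraMap R K) _) H.log +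
      PowerSeries.subst (PowerSeries.map (algebraMap R K) (tail p F H.u k)) H.log = _
    rw [ih, sum_range_succ, map_mul, PowerSeries.map_C, map_pow, PowerSeries.map_X, add_comm]

/-- `[p] x = p G +_F ∑^F u i x ^ (p ^ i)`, where `log (p G) = p x`. -/
theorem nsmul_p {F : FormalGroup R} (hF : H.IsLog F) {n : ℕ} (hu : ∀ i, n < i → H.u i = 0) :
    ∃ G : PowerSeries R, G.constantCoeff = 0 ∧
      PowerSeries.subst (PowerSeries.map (algebraMap R K) ((p : PowerSeries R) * G)) H.log =
        (p : PowerSeries K) * PowerSeries.X ∧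
      nsmulSeries F p = F.toPowerSeries.subst ![(p : PowerSeries R) * G, tail p F H.u n] := by
  have hpX : (map (algebraMap R K)) ((p : PowerSeries R) * PowerSeries.X) =
      (p : PowerSeries K) * PowerSeries.X :=
    (map_mul (PowerSeries.map (algebraMap R K)) _ _).trans (by simp)
  have hZ0 : ((p : PowerSeries K) * PowerSeries.X).constantCoeff = 0 := by simp
  obtain ⟨hg0, hgl⟩ := H.subst_log_logInv (τ := Unit) hZ0
  obtain ⟨G, hG⟩ := H.dvd_of_subst_log_eq (A := (PowerSeries.X : PowerSeries R)) hg0
    (hgl.trans hpX.symm)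
  have hG0 : MvPowerSeries.constantCoeff G = 0 := by
    have h := congrArg MvPowerSeries.constantCoeff hG
    rw [hg0, constantCoeff_map, map_mul, map_natCast, map_mul, map_natCast] at h
    apply FaithfulSMul.algebraMap_injective R K
    rw [map_zero]
    exact H.cancel_p (by rw [h, mul_zero])
  have hlogG : PowerSeries.subst (PowerSeries.map (algebraMap R K) ((p : PowerSeries R) * G))
      H.log = (p : PowerSeries K) * PowerSeries.X :=
    (congrArg (fun g => PowerSeries.subst g H.log) hG).trans hgl
  refine ⟨G, hG0, hlogG, ?_⟩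
  have hpG : MvPowerSeries.constantCoeff ((p : PowerSeries R) * G) = 0 := by simp [hG0]
  refine H.eq_of_log_eq (τ := Unit) (constantCoeff_nsmulSeries F p)
    (constantCoeff_two F hpG (constantCoeff_tail F H.u n)) ?_
  refine (H.log_nsmul hF p).trans ?_
  refine Eq.trans ?_ (IsLog.subst_two H hF (τ := Unit) hpG (constantCoeff_tail F H.u n)).symm
  change _ = PowerSeries.subst (PowerSeries.map (algebraMap R K) _) H.log +
    PowerSeries.subst (PowerSeries.map (algebraMap R K) (tail p F H.u n)) H.log
  rw [hlogG, H.log_tail hF, H.p_mul_log hu]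

end Haz

lemma map_two {k : Type*} [CommRing k] (ψ : R →+* k) (F : FormalGroup R) {a b : PowerSeries R}
    (ha : a.constantCoeff = 0) (hb : b.constantCoeff = 0) :
    PowerSeries.map ψ (F.toPowerSeries.subst ![a, b]) =
      (F.map ψ).toPowerSeries.subst ![PowerSeries.map ψ a, PowerSeries.map ψ b] := by
  refine (map_subst (σ := Fin 2) (τ := Unit)
    (hasSubst_of_constantCoeff_zero fun i => by fin_cases i <;> assumption) _).trans ?_
  congr 1
  funext i
  fin_cases i <;> rfl

/-- After reducing modulo `p` only the tail of `[p] x` remains. -/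
theorem Haz.map_nsmul_p [FaithfulSMul R K] (H : Haz p R K) {F : FormalGroup R} (hF : H.IsLog F)
    {n : ℕ} (hu : ∀ i, n < i → H.u i = 0) {k : Type} [CommRing k] (ψ : R →+* k)
    (hψ : ψ (p : R) = 0) :
    PowerSeries.map ψ (nsmulSeries F p) = PowerSeries.map ψ (tail p F H.u n) := by
  obtain ⟨G, hG0, -, hG⟩ := H.nsmul_p hF hu
  have hpG : PowerSeries.constantCoeff ((p : PowerSeries R) * G) = 0 := by simp [hG0]
  rw [hG, map_two ψ F hpG (Haz.constantCoeff_tail F H.u n),
    show PowerSeries.map ψ ((p : PowerSeries R) * G) = 0 by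
      rw [map_mul, ← map_natCast (PowerSeries.C (R := R)), PowerSeries.map_C, hψ, map_zero,
        zero_mul]]
  exact (F.map ψ).zero_add (PowerSeries.HasSubst.of_constantCoeff_zero (τ := Unit)
    ((constantCoeff_map (σ := Unit) ψ _).trans (by
      rw [show MvPowerSeries.constantCoeff (tail p F H.u n) = 0 from
        Haz.constantCoeff_tail F H.u n, map_zero])))

end Vale.Agent.P217.FG
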